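import Vale.Agent.P236F.Vc
import Vale.Agent.P236KE.S90.Def

/-!
# P236F / Ds : the data of the small complexes of the sphere, of `C α` and of `Y`
-/

noncomputable section

namespace Vale.Agent.P236F

open MvPolynomial Vale.Agent.P236EL Vale.Agent.P236KE Vale.Agent.P236K3 Vale.Agent.P236KE.S90

/-- the sphere -/
def dS (T : Nat) : KD := kdS sph T (nat_lit 26535)
/-- two cells -/
def dA (T : Nat) : KD := tK (cdN (nat_lit 2)) (dS T)
/-- three cells -/
def dY (T : Nat) : KD := tK (cdN (nat_lit 3)) (dS T)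

theorem sph_k : 26535 = (13 + 384 * sph.s3) * 3 := by decide +kernel

theorem sph_n : sph.n 0 = 1 := by decide +kernel

/-- the generator in degree zero -/
def g0 : sph.G 1 := ⟨0, Nat.lt_of_lt_of_eq Nat.one_pos sph_n.symm⟩

theorem eq_g0 (w : sph.G 1) : w = g0 :=
  Fin.ext (Nat.lt_one_iff.1 (Nat.lt_of_lt_of_eq w.2 sph_n))

theorem one_eq : (1 : sph.G 1 → A) = bv g0 0 := funext fun w => by
  rw [eq_g0 w, bv_self]
  rfl

variable [Fact (Nat.Prime 3)] (T : ℕ) (hT : T < 120)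

include hT

theorem cxS : Cx (sph.rs K) 0 T sph.s3 sph.s4 (dS T) fun _ => Fin.val := cx_sq sph hT sph_k

theorem cxA : Cx ((sph.rs K).tens rfl rfl ((Ga.two 2).cm 3)) 0 T sph.s3 sph.s4 (dA T)
    fun q => tix ((dS T).L q) Fin.val Fin.val := cx_tens (cxS T hT) cdN_two rfl rfl

theorem cxY : Cx ((sph.rs K).tens rfl rfl ((Ga.three 2 2 2 rfl).cm 3)) 0 T sph.s3 sph.s4 (dY T)
    fun q => tix ((dS T).L q) Fin.val Fin.val := cx_tens (cxS T hT) cdN_three rfl rfl

end Vale.Agent.P236F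

end
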