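import Vale.Agent.P236EL.Cc

/-!
# P236F / Nm : classes with given leading terms
-/

noncomputable section

namespace Vale.Agent.P236EL

open Vale.Agent.P251.F Vale.Agent.P236KE Vale.Agent.P236K3 Vale.Agent.P236F

/-- the listed terms, cut at filtration `b` -/
def WC'.nmv (D : KD) (s T a b : Nat) (l : List Tr) : WC' :=
  (WC'.lst (D.L s) T a (Nat.add a 3) l).fit (D.L s) T a b

variable [hp : Fact (Nat.Prime 3)] {G : ℕ → Type} [∀ q, Fintype (G q)] {R : Rs 3 K G}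
  {θ : G 0 → G 0 → Cob Laz 1} {D : KD} {ix : ∀ q, G (q + 1) → ℕ} {s T a b k : ℕ}
  {x : G 0 → Cob Laz s} [DecidableEq (G 0)] {Tm s3 s4 : ℕ} (H : Wx R θ D ix Tm s3 s4)

include H

theorem Wx.nm' {l : List Tr} (h : Rc R θ s T a b x (vL (ix s) l)) (hb : b ≤ a + 3) :
    CV R θ D ix s x (WC'.nmv D s T a b l) :=
  (WR.fit (H.ok s) ((ok_lst (H.ok s) T a (a + 3) l).mono fun _ _ _ _ h => h.2.2.2) hb).mono
    fun _ _ _ _ ⟨h1, h2, h3, h4⟩ => ⟨_, h1 ▸ h2 ▸ h.mono le_rfl h3, h4⟩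

/-- **a class with given leading term** -/
theorem Wx.named (T k : ℕ) (l : List Tr) (hc : WC'.cyC D s T k (k + 3) l = true)
    (hv : WC'.vaC D (s + 1) T (k + 3) (T + 1) = true) :
    ∃ x, x ∈ ZC 3 θ (R.deg 0) T 3 s ∧ CV R θ D ix s x (WC'.nmv D s T k (k + 1) l) :=
  (H.lift hc (H.kv hv)).imp fun _ h => ⟨h.zc, H.nm' h (by omega)⟩

end Vale.Agent.P236EL

end
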