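import Vale.Agent.P236SY.Low

/-!
# P236: the facts about the cohomology modulo three that are used in the steps R0 to R3

A group is named by its weight `w` and degree `s`; the stem is `4 w - s`. The sphere has the cell
set `Fin 1`, the complex `C α` has the coaction `θA t` and `Y` has the coaction `θY t`. The level
of a class is its filtration by the powers of the maximal invariant ideal.
-/

namespace Vale.Agent.P236F

open Vale.Agent.P251.F Vale.Agent.P251.I Vale.Agent.P236EL Vale.Agent.P236SY AddSubgroup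

/-- cocycles modulo three on the sphere -/
noncomputable abbrev ZS (w : ℤ) (s : ℕ) : AddSubgroup (Fin 1 → Cob Laz s) :=
  ZC 3 0 (fun _ => 0) w 3 s

/-- coboundaries modulo three on the sphere -/
noncomputable abbrev BS (w : ℤ) (s : ℕ) : AddSubgroup (Fin 1 → Cob Laz s) :=
  BQ 3 0 (fun _ => 0) w 3 s

variable (t : Cob Laz 1)

/-- cocycles modulo three on `C α` -/
noncomputable abbrev ZT (w : ℤ) (s : ℕ) : AddSubgroup (Fin 2 → Cob Laz s) :=
  ZC 3 (θA t) (dF 2) w 3 s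

/-- coboundaries modulo three on `C α` -/
noncomputable abbrev BT (w : ℤ) (s : ℕ) : AddSubgroup (Fin 2 → Cob Laz s) :=
  BQ 3 (θA t) (dF 2) w 3 s

/-- cocycles modulo three on `Y` -/
noncomputable abbrev ZY (w : ℤ) (s : ℕ) : AddSubgroup (Fin 3 → Cob Laz s) :=
  ZC 3 (θY t) (dF 3) w 3 s

/-- coboundaries modulo three on `Y` -/
noncomputable abbrev BY (w : ℤ) (s : ℕ) : AddSubgroup (Fin 3 → Cob Laz s) :=
  BQ 3 (θY t) (dF 3) w 3 s

/-- the cocycle of `β_1` -/
noncomputable def bb : Cob Laz 2 := Cob.cup (2 * t ^ 2) (2 * t) + Cob.cup (2 * t) (2 * t ^ 2)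

/-- the product with `β_1 ^ 3` in degree one -/
noncomputable def b3 (z : Cob Laz 1) : Fin 1 → Cob Laz 7 :=
  lc _ (show 2 + 5 = 7 from rfl) (bb t) (lc _ (show 2 + 3 = 5 from rfl) (bb t)
    (lc _ (show 2 + 1 = 3 from rfl) (bb t) fun _ => z))

/-- `z` is a cocycle modulo three with leading term `t ^ 27`. -/
def Th (z : Cob Laz 1) : Prop :=
  (fun _ => z) ∈ ZS 27 1 ∧ (fun _ => z - t ^ 27) ∈ Fl p3 (Fin 1) 1 (II 3 (ZMod 3) ^ 1)

/-- The cohomology of `Y` vanishes. -/
def VY (w : ℤ) (s : ℕ) : Prop := ZY t w s ≤ BY t w s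

/-- The cohomology of `Y` is generated by each of its nonzero elements. -/
def LY (w : ℤ) (s : ℕ) : Prop :=
  ∀ z ∈ ZY t w s, z ∉ BY t w s → ZY t w s ≤ zmultiples z ⊔ BY t w s

/-- Stem 137: the group is generated by `β ^ 3 y`, `y = v_2 ^ 6 h_1 + …` of level 6. -/
def FT : Prop := ∃ y : Cob Laz 1, (fun _ => y) ∈ ZS 27 1 ∧
  (fun _ => y) ∈ Fl p3 (Fin 1) 1 (II 3 (ZMod 3) ^ 1) ∧ ZS 36 7 ≤ zmultiples (b3 t y) ⊔ BS 36 7

/-- Stem 142: the group is generated by `v_1 ^ 8 h_3 h_0` (level 8). -/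
def G142 : Prop := ZS 36 2 ≤ zmultiples (lc _ (show 0 + 2 = 2 from rfl) (v1 ^ 8)
  (lc _ (show 1 + 1 = 2 from rfl) (t ^ 27) fun _ => t)) ⊔ BS 36 2

/-- Stem 139 of `C α`: two generators, of levels 8 and 33. -/
def G139 : Prop := ∀ z, Th t z → ZT t 35 1 ≤
  closure {lc _ (show 0 + 1 = 1 from rfl) (v1 ^ 8) (Pi.single 0 z),
    lc _ (show 0 + 1 = 1 from rfl) (v1 ^ 33) ![2 * t ^ 2, 2 * t]} ⊔ BT t 35 1

/-- The product with `h_3` is injective on stem 31 of `C α` (a line, level 1 to level 1). -/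
def N138 : Prop := ∀ z, Th t z → ∀ F ∈ ZT t 9 5,
  lc _ (show 1 + 5 = 6 from rfl) z F ∈ BT t 36 6 → F ∈ BT t 9 5

/-- The product with `h_2` is injective on stem 142 of `Y` (a line, level 1 to level 1). -/
def N177 : Prop := ∀ F ∈ ZY t 37 6,
  lc _ (show 1 + 6 = 7 from rfl) (t ^ 9) F ∈ BY t 46 7 → F ∈ BY t 37 6

/-- The product of `v_1`, of a class of stem 173 of the sphere (level 0) and of the generator of
stem 153 of `Y` (level 0) is not zero; it has level 2. -/
def U173 : Prop := ∃ u : Cob Laz 7, (fun _ => u) ∈ ZS 45 7 ∧ ∃ Ω ∈ ZY t 40 7,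
  lc _ (show 0 + 14 = 14 from rfl) v1 (lc _ (show 7 + 7 = 14 from rfl) u Ω) ∉ BY t 86 14

/-- The bidegrees `(w, s)` in which the cohomology of `Y` has to vanish. -/
def vl : List (ℤ × ℕ) :=
  [(30, 6), (31, 10), (31, 7), (33, 8), (34, 9), (36, 10), (37, 11), (38, 10), (18, 2), (19, 6),
    (19, 5), (41, 12), (41, 8), (42, 12), (42, 8), (43, 12), (87, 18), (88, 22), (89, 26), (90, 30)]

/-- All facts used in R0 to R3, besides `P236K.EA`. -/
structure FR : Prop where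
  van : ∀ a ∈ vl, VY t a.1 a.2
  ft : FT t
  g142 : G142 t
  g139 : G139 t
  n138 : N138 t
  n177 : N177 t
  l177 : LY t 46 7
  u173 : U173 t
  l330 : LY t 86 14

end Vale.Agent.P236F
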