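import Vale.Agent.P236F.Tn
import Vale.Agent.P236KE.Chm
import Vale.Agent.P236EL.Red

/-!
# P236F / Vc : explicit vectors, products and ranges of lengths
-/

noncomputable section

namespace Vale.Agent.P236F

open MvPolynomial Vale.Agent.P236EL Vale.Agent.P236KE Vale.Agent.P236K2 Vale.Agent.P236K3

/-- a term: generator, exponents, coefficient -/
structure Tr : Type where
  i : Nat
  e1 : Nat
  e2 : Nat
  e3 : Nat
  e4 : Nat
  c : Nat

/-- the computation of a list of terms -/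
def vcL (L : LD) (l : List Tr) : VC :=
  List.rec (motive := fun _ => VC) VC.zero
    (fun t _ ih => ((VC.mon L t.i t.e3 t.e4).sm t.c).add ih) l

/-- the terms have weight `T` and length from `a` to `b - 1` -/
def okL (L : LD) (T a b : Nat) (l : List Tr) : Bool := l.all fun t =>
  decide (t.i < L.n ∧ t.e1 + 4 * t.e2 + 13 * t.e3 + 40 * t.e4 + L.dg t.i = T ∧
    a ≤ t.e1 + t.e2 + t.e3 + t.e4 ∧ t.e1 + t.e2 + t.e3 + t.e4 < b)

/-- the product with a transpotence class -/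
def bmV (D : KD) (s s1 s2 k k2 T T1 T2 T3 a b : Nat) (v : VC) : VC :=
  (D.dl s1 s2 k2 T1 T3 a b (D.dl s s1 k T T1 a b v)).add
    (D.dl s1 s2 k T2 T3 a b (D.dl s s1 k2 T T2 a b v))

/-- the number with the listed bits -/
def exl (l : List Nat) : Nat :=
  List.rec (motive := fun _ => Nat) (nat_lit 0)
    (fun k _ ih => Nat.lor (Nat.shiftLeft (nat_lit 1) k) ih) l

theorem exl_bit {l : List ℕ} {k : ℕ} (h : k ∉ l) : (exl l).testBit k = false := by
  induction l with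
  | nil => exact Nat.zero_testBit k
  | cons j l ih =>
    change (1 <<< j ||| exl l).testBit k = false
    rw [Nat.testBit_or, ih fun h1 => h (List.mem_cons_of_mem _ h1), Nat.one_shiftLeft,
      Nat.testBit_two_pow_of_ne fun h1 : j = k => h (h1 ▸ List.mem_cons_self)]
    rfl

/-- the vanishing checks in consecutive ranges of lengths -/
def VL (D : KD) (s T : ℕ) (l : List ℕ) : ℕ → List ℕ → Prop
  | lo, [] => T < lo
  | lo, hi :: c => D.van s T (exl l) lo hi = true ∧ VL D s T l hi c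

variable {W W' : Type} [Fintype W] [Fintype W'] {L L' : LD} {ix : W → ℕ} {ix' : W' → ℕ}
  {T T' a a' b b' k s3 s4 : ℕ} {v : VC} {u : W → A}

omit [Fintype W] in
theorem bv_self (g : W) (J : ℕ →₀ ℕ) : bv g J g = monomial J 1 := by
  classical
  rw [bv, Pi.single_eq_same]

omit [Fintype W] in
theorem bv_ne {g g' : W} (h : g' ≠ g) (J : ℕ →₀ ℕ) : bv g J g' = 0 := by
  classical
  rw [bv, Pi.single_eq_of_ne h]

theorem exists_VR (hL : L.Ok ix) {l : List Tr} (h : okL L T a b l = true) :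
    ∃ u, VR L ix T a b (vcL L l) u := by
  induction l with
  | nil => exact ⟨_, VR.zero⟩
  | cons t l ih =>
    rw [okL, List.all_cons, Bool.and_eq_true, decide_eq_true_iff] at h
    obtain ⟨⟨h1, h2, h3, h4⟩, h5⟩ := h
    obtain ⟨u, hu⟩ := ih h5
    obtain ⟨g, hg⟩ := hL.sur _ h1
    have h6 : lenM (mk4 t.e1 t.e2 t.e3 t.e4) = t.e1 + t.e2 + t.e3 + t.e4 := by
      rw [lenM, weight_mk4]
      omega
    have h7 := VR.mon (L := L) (ix := ix) (T := T) (a := a) (b := b) g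
      (J := mk4 t.e1 t.e2 t.e3 t.e4) (by rw [wtM, weight_wt_mk4, hg, h2]) (h6 ▸ h3) (h6 ▸ h4)
    rw [mk4_2, mk4_3, hg] at h7
    exact ⟨_, (h7.sm t.c).add hu⟩

theorem vr_bv (g : W) {i : ℕ} (hi : ix g = i) (hd : Nat.beq (L.dg i) T = true) (hb : 0 < b) :
    VR L ix T 0 b (VC.mon L i 0 0) (bv g 0) := by
  subst hi
  exact VR.mon g (J := 0) (by rw [wtM, map_zero, zero_add, Nat.eq_of_beq_eq_true hd])
    (Nat.zero_le _) (by rwa [lenM, map_zero])

theorem vr_vm (h : VR L ix T a b v u) (k : ℕ) (hT : T + k = T') (hb : b + k = b')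
    (ha : a' ≤ a + k) : VR L ix T' a' b' (v.shl 0) (P236EL.vm k u) := by
  subst hT hb
  have h1 := h.mul (Finsupp.single 0 k)
  rw [pl_0, wtM, lenM, Finsupp.weight_single, Finsupp.weight_single, smul_eq_mul, smul_eq_mul,
    mul_one, show wt 3 0 = 1 from rfl, mul_one, ← X_pow_eq_monomial] at h1
  exact h1.low ha

variable [Fact (Nat.Prime 3)]

theorem vr_fa {y : W → W' → (ℕ →₀ ℕ) → A} {r : Rw} (H : St y L ix L' ix' s3 s4 r) (hT : T ≤ L.T)
    (hT' : T ≤ L'.T) (hb : b ≤ a + 3) (h : VR L ix T a b v u) :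
    VR L' ix' T a b (v.dl r L L' 0 T T a b) (fa 3 y u) := by
  have h1 := h.dl H 0 hT (by simpa using hT') hb
  rw [show cd s3 s4 0 = 0 by simp [cd], wtM, map_zero, add_zero] at h1
  refine (congrArg _ (funext fun w => ?_)).mp h1
  rw [dly_apply, Finset.sum_apply, fa_apply]
  exact Finset.sum_congr rfl fun i _ => congrArg (rAp (RingHom.id _) (y i w)) (one_mul _)

theorem st_zf (S : Sq) (Z : List DLL) {m ω q ds T k : ℕ} (hT : T < 120)
    (hk : k = (13 + 384 * S.s3) * 3) (h : shOk (S.d q) ds (S.n q) ω = true) :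
    St (S.zf K Z m ω q) (mkLD T ds (S.n q)) Fin.val ((kdS S T k).L (m + q)) Fin.val S.s3 S.s4
      (rwS k (Z.getD q DLL.nil) ds ((kdS S T k).L (m + q))) := by
  rw [funext₂ (S.zf_eq (L := K) h)]
  exact hk ▸ st_yOf (mkLD_ok hT _ _) ((cx_sq S hT rfl).st (m + q)).ok _ rfl rfl _ _

variable {G : ℕ → Type} [∀ q, Fintype (G q)] {R : Rs 3 K G} {o w : ℤ} {Tm s : ℕ} {D : KD}
  {ix : ∀ q, G (q + 1) → ℕ} (h : Cx R o Tm s3 s4 D ix) {u : G (s + 1) → A}

include h

theorem cx_vl (hw : w = T + o) (hT : T ≤ Tm) {l c : List ℕ} (hc : VL D s T l a c) (h1 : a ≤ k)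
    (h2 : k ∉ l) : R.K3s 3 s w k ⊥ := by
  induction c generalizing a with
  | nil => exact h.k3s_top hw hT (lt_of_lt_of_le hc h1) 3
  | cons hi c ih =>
    exact (lt_or_ge k hi).elim (fun h3 => h.van hw hT hc.1 h1 h3 (exl_bit h2)) (ih hc.2)

theorem cx_kl (hw : w = T + o) (hT : T ≤ Tm) (hv : VR (D.L s) (ix s) T (k - 2) (k + 1) v u)
    (hc : D.k3s s T k [v] = true) : R.K3s 3 s w k (AddSubgroup.zmultiples u) :=
  h.k3s hw hT (List.Forall₂.cons hv List.Forall₂.nil)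
    (fun _ h1 => List.mem_singleton.1 h1 ▸ AddSubgroup.mem_zmultiples u) hc

theorem cx_ex (hw : w = T + o) (hT : T ≤ Tm) {l : List Tr}
    (h1 : okL (D.L s) T (k - 2) (k + 1) l = true) (hc : D.k3s s T k [vcL (D.L s) l] = true) :
    ∃ u, VR (D.L s) (ix s) T (k - 2) (k + 1) (vcL (D.L s) l) u ∧
      R.K3s 3 s w k (AddSubgroup.zmultiples u) :=
  (exists_VR (h.st s).ok h1).imp fun _ hu => ⟨hu, cx_kl h hw hT hu hc⟩

theorem cx_gen (hw : w = T + o) (hT : T ≤ Tm) {n : ℕ} (hak : a ≤ k) (hk : k + 1 ≤ a + 3)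
    (hn : n ≤ k + 3) (hc : D.gen s T a k n [] = true) : R.Cy s w k n ≤ R.Bd s w a (k + 1) := by
  simpa using h.gen (S := ⊥) hw hT hak hk hn List.Forall₂.nil (fun _ h => nomatch h) hc

theorem cx_tm (k : ℕ) {s' : ℕ} (hT' : T + k = T') (hs : s + 1 = s') (hT : T' ≤ Tm)
    (hb : b ≤ a + 3) (hv : VR (D.L s) (ix s) T a b v u) :
    VR (D.L (s + 1)) (ix (s + 1)) T' a b (D.dl s s' k T T' a b v) (R.tm s k u) := by
  rw [Rs.tm, X_pow_eq_monomial]
  exact h.dl _ (cd_0 _ _ _) (by rwa [wtM, Finsupp.weight_single, smul_eq_mul,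
    show wt 3 0 = 1 from rfl, mul_one]) hs hT hb hv

theorem cx_bm (k : ℕ) {s1 s2 k2 T1 T2 T3 : ℕ} (h1 : s + 1 = s1) (h2 : s + 2 = s2)
    (h3 : 2 * k = k2) (h4 : T + k = T1) (h5 : T + k2 = T2) (h6 : T1 + k2 = T3) (hT : T3 ≤ Tm)
    (hb : b ≤ a + 3) (hv : VR (D.L s) (ix s) T a b v u) :
    VR (D.L (s + 2)) (ix (s + 2)) T3 a b (bmV D s s1 s2 k k2 T T1 T2 T3 a b v) (R.bm s k u) := by
  subst h1 h3
  exact (cx_tm h _ h6 h2 hT hb (cx_tm h _ h4 rfl (by omega) hb hv)).add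
    (cx_tm h _ (by omega) h2 hT hb (cx_tm h _ h5 rfl (by omega) hb hv))

end Vale.Agent.P236F

end
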