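import Vale.Agent.P236F.Ds

/-!
# P236F / Ck1 : vanishing checks
-/

namespace Vale.Agent.P236F

open Vale.Agent.P236K3

theorem y87_0 : (dY 87).van 18 87 (exl []) 0 5 = true := by decide +kernel
theorem y87_1 : (dY 87).van 18 87 (exl []) 5 10 = true := by decide +kernel
theorem y87_2 : (dY 87).van 18 87 (exl []) 10 15 = true := by decide +kernel
theorem y87_3 : (dY 87).van 18 87 (exl []) 15 88 = true := by decide +kernel
theorem y87 : VL (dY 87) 18 87 [] 0 [5, 10, 15, 88] :=
  ⟨y87_0, y87_1, y87_2, y87_3, Nat.lt_succ_self _⟩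

end Vale.Agent.P236F
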