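import Vale.Agent.P236F.Ds

/-!
# P236F / Ck2 : vanishing checks
-/

namespace Vale.Agent.P236F

open Vale.Agent.P236K3

theorem y88_0 : (dY 88).van 22 88 (exl []) 0 10 = true := by decide +kernel
theorem y88_1 : (dY 88).van 22 88 (exl []) 10 89 = true := by decide +kernel
theorem y88 : VL (dY 88) 22 88 [] 0 [10, 89] :=
  ⟨y88_0, y88_1, Nat.lt_succ_self _⟩

theorem y89_0 : (dY 89).van 26 89 (exl []) 0 10 = true := by decide +kernel
theorem y89_1 : (dY 89).van 26 89 (exl []) 10 90 = true := by decide +kernel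
theorem y89 : VL (dY 89) 26 89 [] 0 [10, 90] :=
  ⟨y89_0, y89_1, Nat.lt_succ_self _⟩

theorem y90_0 : (dY 90).van 30 90 (exl []) 0 91 = true := by decide +kernel
theorem y90 : VL (dY 90) 30 90 [] 0 [91] :=
  ⟨y90_0, Nat.lt_succ_self _⟩

end Vale.Agent.P236F
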