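import Vale.Agent.P236F.Ds

/-!
# P236F / Ck3 : vanishing checks
-/

namespace Vale.Agent.P236F

open Vale.Agent.P236K3

theorem y86_0 : (dY 86).van 14 86 (exl [2]) 0 6 = true := by decide +kernel
theorem y86_1 : (dY 86).van 14 86 (exl [2]) 6 9 = true := by decide +kernel
theorem y86_2 : (dY 86).van 14 86 (exl [2]) 9 11 = true := by decide +kernel

end Vale.Agent.P236F
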