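import Vale.Agent.P236F.Ds

/-!
# P236F / Ck4 : vanishing checks
-/

namespace Vale.Agent.P236F

open Vale.Agent.P236K3

theorem y86_3 : (dY 86).van 14 86 (exl [2]) 11 14 = true := by decide +kernel
theorem y86_4 : (dY 86).van 14 86 (exl [2]) 14 18 = true := by decide +kernel
theorem y86_5 : (dY 86).van 14 86 (exl [2]) 18 87 = true := by decide +kernel

end Vale.Agent.P236F
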