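import Vale.Agent.P236F.Ds

/-!
# P236F / Ck5 : vanishing checks
-/

namespace Vale.Agent.P236F

open Vale.Agent.P236K3

theorem y30_6_0 : (dY 30).van 6 30 (exl []) 0 31 = true := by decide +kernel
theorem y30_6 : VL (dY 30) 6 30 [] 0 [31] :=
  ⟨y30_6_0, Nat.lt_succ_self _⟩

theorem y31_10_0 : (dY 31).van 10 31 (exl []) 0 32 = true := by decide +kernel
theorem y31_10 : VL (dY 31) 10 31 [] 0 [32] :=
  ⟨y31_10_0, Nat.lt_succ_self _⟩

theorem y31_7_0 : (dY 31).van 7 31 (exl []) 0 32 = true := by decide +kernel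
theorem y31_7 : VL (dY 31) 7 31 [] 0 [32] :=
  ⟨y31_7_0, Nat.lt_succ_self _⟩

theorem y33_8_0 : (dY 33).van 8 33 (exl []) 0 34 = true := by decide +kernel
theorem y33_8 : VL (dY 33) 8 33 [] 0 [34] :=
  ⟨y33_8_0, Nat.lt_succ_self _⟩

theorem y34_9_0 : (dY 34).van 9 34 (exl []) 0 35 = true := by decide +kernel
theorem y34_9 : VL (dY 34) 9 34 [] 0 [35] :=
  ⟨y34_9_0, Nat.lt_succ_self _⟩

theorem y36_10_0 : (dY 36).van 10 36 (exl []) 0 37 = true := by decide +kernel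
theorem y36_10 : VL (dY 36) 10 36 [] 0 [37] :=
  ⟨y36_10_0, Nat.lt_succ_self _⟩

theorem y37_11_0 : (dY 37).van 11 37 (exl []) 0 38 = true := by decide +kernel
theorem y37_11 : VL (dY 37) 11 37 [] 0 [38] :=
  ⟨y37_11_0, Nat.lt_succ_self _⟩

theorem y38_10_0 : (dY 38).van 10 38 (exl []) 0 39 = true := by decide +kernel
theorem y38_10 : VL (dY 38) 10 38 [] 0 [39] :=
  ⟨y38_10_0, Nat.lt_succ_self _⟩

theorem y18_2_0 : (dY 18).van 2 18 (exl []) 0 19 = true := by decide +kernel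
theorem y18_2 : VL (dY 18) 2 18 [] 0 [19] :=
  ⟨y18_2_0, Nat.lt_succ_self _⟩

theorem y19_6_0 : (dY 19).van 6 19 (exl []) 0 20 = true := by decide +kernel
theorem y19_6 : VL (dY 19) 6 19 [] 0 [20] :=
  ⟨y19_6_0, Nat.lt_succ_self _⟩

theorem y19_5_0 : (dY 19).van 5 19 (exl []) 0 20 = true := by decide +kernel
theorem y19_5 : VL (dY 19) 5 19 [] 0 [20] :=
  ⟨y19_5_0, Nat.lt_succ_self _⟩

theorem y41_12_0 : (dY 41).van 12 41 (exl []) 0 42 = true := by decide +kernel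
theorem y41_12 : VL (dY 41) 12 41 [] 0 [42] :=
  ⟨y41_12_0, Nat.lt_succ_self _⟩

theorem y41_8_0 : (dY 41).van 8 41 (exl []) 0 42 = true := by decide +kernel
theorem y41_8 : VL (dY 41) 8 41 [] 0 [42] :=
  ⟨y41_8_0, Nat.lt_succ_self _⟩

theorem y42_12_0 : (dY 42).van 12 42 (exl []) 0 43 = true := by decide +kernel
theorem y42_12 : VL (dY 42) 12 42 [] 0 [43] :=
  ⟨y42_12_0, Nat.lt_succ_self _⟩

theorem y42_8_0 : (dY 42).van 8 42 (exl []) 0 43 = true := by decide +kernel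
theorem y42_8 : VL (dY 42) 8 42 [] 0 [43] :=
  ⟨y42_8_0, Nat.lt_succ_self _⟩

theorem y43_12_0 : (dY 43).van 12 43 (exl []) 0 44 = true := by decide +kernel
theorem y43_12 : VL (dY 43) 12 43 [] 0 [44] :=
  ⟨y43_12_0, Nat.lt_succ_self _⟩

end Vale.Agent.P236F
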