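import Vale.Agent.P236F.Ds

/-!
# P236F / Ck6 : vanishing checks
-/

namespace Vale.Agent.P236F

open Vale.Agent.P236K3

theorem s9_0 : (dS 9).van 2 9 (exl [0]) 0 10 = true := by decide +kernel
theorem s9 : VL (dS 9) 2 9 [0] 0 [10] :=
  ⟨s9_0, Nat.lt_succ_self _⟩

theorem s27_0 : (dS 27).van 2 27 (exl []) 9 28 = true := by decide +kernel
theorem s27 : VL (dS 27) 2 27 [] 9 [28] :=
  ⟨s27_0, Nat.lt_succ_self _⟩

theorem s36_7_0 : (dS 36).van 7 36 (exl [6]) 0 37 = true := by decide +kernel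
theorem s36_7 : VL (dS 36) 7 36 [6] 0 [37] :=
  ⟨s36_7_0, Nat.lt_succ_self _⟩

theorem s36_2_0 : (dS 36).van 2 36 (exl [8]) 0 37 = true := by decide +kernel
theorem s36_2 : VL (dS 36) 2 36 [8] 0 [37] :=
  ⟨s36_2_0, Nat.lt_succ_self _⟩

theorem a35_0 : (dA 35).van 1 35 (exl [8, 33]) 0 36 = true := by decide +kernel
theorem a35 : VL (dA 35) 1 35 [8, 33] 0 [36] :=
  ⟨a35_0, Nat.lt_succ_self _⟩

theorem a9_0 : (dA 9).van 5 9 (exl [1]) 0 10 = true := by decide +kernel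
theorem a9 : VL (dA 9) 5 9 [1] 0 [10] :=
  ⟨a9_0, Nat.lt_succ_self _⟩

theorem y37_0 : (dY 37).van 6 37 (exl [1]) 0 38 = true := by decide +kernel
theorem y37 : VL (dY 37) 6 37 [1] 0 [38] :=
  ⟨y37_0, Nat.lt_succ_self _⟩

theorem y46_0 : (dY 46).van 7 46 (exl [1]) 0 47 = true := by decide +kernel
theorem y46 : VL (dY 46) 7 46 [1] 0 [47] :=
  ⟨y46_0, Nat.lt_succ_self _⟩

theorem s45_0 : (dS 45).van 8 45 (exl []) 3 46 = true := by decide +kernel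
theorem s45 : VL (dS 45) 8 45 [] 3 [46] :=
  ⟨s45_0, Nat.lt_succ_self _⟩

theorem y40_0 : (dY 40).van 8 40 (exl []) 3 41 = true := by decide +kernel
theorem y40 : VL (dY 40) 8 40 [] 3 [41] :=
  ⟨y40_0, Nat.lt_succ_self _⟩

end Vale.Agent.P236F
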