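import Vale.Agent.P236F.Nm

/-!
# P236F / Dv : cochains which are almost cocycles
-/

noncomputable section

namespace Vale.Agent.P236EL

open Vale.Agent.P251.F Vale.Agent.P251.I Vale.Agent.P236SY Vale.Agent.P236R MvPolynomial
open Vale.Agent.P236KE Vale.Agent.P236K3 Vale.Agent.P236F AddSubgroup

variable [hp : Fact (Nat.Prime 3)] {G : ℕ → Type} [∀ q, Fintype (G q)]
  (R : Rs 3 K G) (θ : G 0 → G 0 → Cob Laz 1) (D : KD) (ix : ∀ q, G (q + 1) → ℕ)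

/-- the computation represents the cochain `x` -/
def DV (s : ℕ) (x : G 0 → Cob Laz s) (v : WC') : Prop :=
  v.Ok fun T a b p => ∃ u, Rv p3 R s T a b x u ∧ WP (D.L s) (ix s) u T a b p

/-- coboundaries from filtration `M`, modulo filtration `N` -/
def BI {ι : Type} [Fintype ι] (θ : ι → ι → Cob Laz 1) (d : ι → ℤ) (w : ℤ) (M N s : ℕ) :
    AddSubgroup (ι → Cob Laz s) := BF p3 θ d w (II 3 K ^ M) s ⊔ Fl p3 _ s (II 3 K ^ N)

variable {R θ D ix} {s s' T a b k m n j M N : ℕ} {w ω w' : ℤ} {x : G 0 → Cob Laz s} {v : WC'}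
  {u : G (s + 1) → A}

theorem lc_Fl {ι : Type} (e : m + s = n) {J : Ideal A} {z : Cob Laz m} (hz : rs p3 m z ∈ Fil 3 J)
    (x : ι → Cob Laz s) : lc ι e z x ∈ Fl p3 ι n J :=
  Ideal.mul_top J ▸ lc_mem_Fl e inv_top hz (mem_Fl_top p3 x)

theorem lc_Fl' {ι : Type} (e : m + s = n) (z : Cob Laz m) {x : ι → Cob Laz s}
    (hx : x ∈ Fl p3 ι s (II 3 K ^ N)) : lc ι e z x ∈ Fl p3 ι n (II 3 K ^ N) :=
  Ideal.top_mul (II 3 K ^ N) ▸ lc_mem_Fl e (inv_II.pow N) (mem_Fl_top p3 (fun _ : Unit => z) ()) hx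

variable [DecidableEq (G 0)]

namespace Wd

variable (H : Wd R θ)

include H

theorem pick (h : Rc R θ s w a b x u) :
    ∃ y ∈ ZC 3 θ (R.deg 0) w 3 s, Rv p3 R s w a b y u := by
  obtain ⟨y, hy, h1⟩ := h.ex
  exact ⟨_, sub_mem h.zc (H.bz hy), h1⟩

/-- a cochain with given leading term whose differential is a known cocycle -/
theorem alm (hs : s ≤ 59) (hw : w ≤ 90) {𝒵 : AddSubgroup (G 0 → Cob Laz (s + 1))}
    (hz : 𝒵 ≤ ZC 3 θ (R.deg 0) w 3 (s + 1))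
    (h : ∀ k', k + 3 ≤ k' → R.K3s 3 (s + 1) w k' (RP p3 R 3 (s + 1) w 𝒵 k'))
    (hu : u ∈ R.Cy s w k (k + 3)) : ∃ z, Rv p3 R s w k (k + 1) z u ∧
      ∃ g ∈ 𝒵, DD θ s z - g ∈ QW 3 Laz (R.deg 0) w 3 (s + 1) := by
  obtain ⟨x, hx, h1, h2, u', hu', h4⟩ := H.ic.surj (H.ok' (n := s + 1) (by omega)) hw
    (inv_II.pow k) (inv_II.pow (k + 3)) (by rw [pow_add]) hu.1 hu.2
  obtain ⟨g, hg, _, ⟨y, hy, rfl⟩, h5⟩ := H.ic.ker (H.ok' (n := s + 1) (by omega)) (by omega) hw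
    le_rfl (le_sup_left.trans H.bz) hz (m := 1) rfl (H.hj hw)
    (fun k' hk _ x hx hx' => (h k' hk).le_RP le_rfl
      (H.ic.Ph_mem_Cy (H.ok' (by omega)) hw le_rfl hx.1 hx' (ZC_DD_Fl hx _)))
    (H.bz (mem_sup_left ⟨x, hx, rfl⟩)) h2
  refine ⟨x - y, ?_, g, hg, by rwa [map_sub, sub_right_comm]⟩
  simpa using Rv.sub ⟨hx, h1, Rs.mem_Bd.2 ⟨u', hu', Rs.ZA_mono
    (Ideal.pow_le_pow_right (by omega)) h4⟩⟩ (Rv.of_Fl hy.1 k.le_succ hy.2)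

/-- a cocycle without leading terms -/
theorem hi (hs : s ≤ 60) (hw : w ≤ 90) (hx : x ∈ ZC 3 θ (R.deg 0) w 3 s)
    (h : Rv p3 R s w (k - 3) k x 0) (hk : k ≤ N) (h' : ∀ k', k ≤ k' → k' < N → R.K3s 3 s w k' ⊥) :
    x ∈ BI θ (R.deg 0) w (k - 3) N s := by
  obtain ⟨e, he, h1, -⟩ := h.raise H.ic (H.ok' (by omega)) hw (by omega) le_rfl (zero_mem _)
    (ZC_DD_Fl hx _)
  obtain ⟨b, hb, _, rfl, h2⟩ := H.ic.spanI (H.ok' (n := s) (by omega)) (by omega) hw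
    (𝒳 := ZC 3 θ (R.deg 0) w 3 s) (𝒵 := ⊥) inf_le_left (le_sup_left.trans H.bz) bot_le hk
    (fun _ hx => ZC_DD_Fl hx _) (fun k' h1 h2 x hx hx' => (h' k' h1 h2).le_RP bot_le
      (H.ic.Ph_mem_Cy (H.ok' (by omega)) hw le_rfl hx.1 hx' (ZC_DD_Fl hx _)))
    (sub_mem hx (H.bz (mem_sup_left (BF_le_BC p3 _ _ _ _ _ he)))) h1
  simpa [BI] using add_mem (add_mem (mem_sup_right h2) (mem_sup_left
    (BF_mono p3 _ _ _ (Ideal.pow_le_pow_right (by omega)) _ hb))) (mem_sup_left he)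

/-- the product of such a cocycle on the sphere with a cocycle -/
theorem lc_BI (e : m + 1 + s = n + 1) {z : Cob Laz (m + 1)}
    (hz : (fun _ : Fin 1 => z) ∈ BI 0 (fun _ => 0) ω M N _)
    (hx : x ∈ ZC 3 θ (R.deg 0) w 3 s) (e' : ω + w = w') :
    P236EL.lc _ e z x ∈ BI θ (R.deg 0) w' M N (n + 1) := by
  obtain ⟨_, ⟨y, hy, rfl⟩, z', hz', h1⟩ := mem_sup.1 hz
  have h2 : m + s = n := by omega
  rw [← congrFun h1 0, Pi.add_apply, DD_zero, map_add, AddMonoidHom.add_apply,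
    ← sub_eq_iff_eq_add.2 (DD_lc H.mc h2 (y 0) x)]
  exact add_mem (sub_mem (mem_sup_left ⟨_, ⟨e' ▸ lc_mem_CW h2 (sub_zero ω ▸ hy.1 0) hx.1,
    lc_Fl h2 (hy.2 0) x⟩, rfl⟩) (mem_sup_right (zsmul_mem (lc_Fl' _ _ (ZC_DD_Fl hx _)) _)))
    (mem_sup_right (lc_Fl e (hz' 0) x))

omit [DecidableEq (G 0)] H in
/-- the product of a cocycle with an almost cocycle -/
theorem sl (hθ : MC θ) (e : m + s = n) (e' : m + (s + 1) = n + 1) {z : Cob Laz m}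
    (hz : (fun _ => z) ∈ ZS ω m) {g : G 0 → Cob Laz (s + 1)}
    (hg : DD θ s x - g ∈ QW 3 Laz (R.deg 0) w 3 (s + 1))
    (hg' : P236EL.lc _ e' z g ∈ BI θ (R.deg 0) w' M N (n + 1)) (hab : a ≤ b) (hb : b ≤ M)
    {u : G (n + 1) → A} (h : Rv p3 R n w' a b (P236EL.lc _ e z x) u) :
    u ∈ Sl R θ n a b N w' := by
  obtain ⟨_, ⟨y, hy, rfl⟩, z', hz', h1⟩ := mem_sup.1 hg'
  have h3 := h.sub ((Rv.of_Fl hy.1 hab (Fl_mono p3 (Ideal.pow_le_pow_right hb) hy.2)).zsmul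
    ((-1) ^ m))
  rw [smul_zero, sub_zero] at h3
  refine ⟨_, h3, ?_⟩
  have h2 := add_mem (lc_Fl (show m + 1 + s = n + 1 by omega)
    (rs_of_dvd (zs_iff.1 hz).2 (II 3 K ^ N)) x)
    (zsmul_mem (add_mem (lc_Fl' e' z (QW_le_Fl _ hg)) hz') ((-1) ^ m))
  rw [map_sub, ← h1, ← sub_sub, sub_add_cancel] at h2
  rwa [map_sub, DD_lc hθ, map_zsmul, add_sub_assoc, ← smul_sub]

theorem slm {i : ℕ} (e : m + s = n) (e' : j + i = s + 1) (e'' : m + j = k + 1) {z : Cob Laz m}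
    {c : Cob Laz j} (hz : (fun _ => z) ∈ ZS ω m) {ω' w₀ : ℤ}
    (hc : P236EL.lc (Fin 1) e'' z (fun _ => c) ∈ BI 0 (fun _ => 0) ω' M N _) {g : G 0 → Cob Laz i}
    (hg : g ∈ ZC 3 θ (R.deg 0) w₀ 3 i) (ew : ω' + w₀ = w')
    (hx : ∃ g' ∈ zmultiples (P236EL.lc _ e' c g),
      DD θ s x - g' ∈ QW 3 Laz (R.deg 0) w 3 (s + 1)) (hab : a ≤ b) (hb : b ≤ M)
    (u : G (n + 1) → A) (h : Rv p3 R n w' a b (P236EL.lc _ e z x) u) :
    u ∈ Sl R θ n a b N w' := by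
  obtain ⟨_, ⟨r, rfl⟩, h1⟩ := hx
  refine sl H.mc e (by omega) hz h1 ?_ hab hb h
  rw [map_zsmul, ← lc_lc e'' (show k + 1 + i = n + 1 by omega)]
  exact zsmul_mem (H.lc_BI _ hc hg ew) r

end Wd

namespace Wx

variable {Tm s3 s4 : ℕ} (H : Wx R θ D ix Tm s3 s4)

include H

theorem dnm {l : List Tr} (h : Rv p3 R s T a b x (vL (ix s) l)) :
    DV R D ix s x (WC'.nmv D s T a (min b (a + 3)) l) :=
  (WR.fit (H.ok s) ((ok_lst (H.ok s) T a (a + 3) l).mono fun _ _ _ _ h => h.2.2.2)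
    (min_le_right _ _)).mono fun _ _ _ _ ⟨h1, h2, h3, h4⟩ =>
      ⟨_, h1 ▸ h2 ▸ h.mono le_rfl (h3.trans (min_le_left _ _)), h4⟩

theorem dlift (T k : ℕ) (l : List Tr) (hc : WC'.cyC D s T k (k + 3) l = true)
    (hv : WC'.vaC D (s + 1) T (k + 3) (T + 1) = true) : ∃ x ∈ ZC 3 θ (R.deg 0) T 3 s,
      DV R D ix s x (WC'.nmv D s T k (min (k + 1) (k + 3)) l) :=
  (H.wd.lift (H.bnd hc).1 (H.bnd hc).2.2.1 (H.kv hv) (H.cy le_rfl hc)).imp fun _ h =>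
    ⟨h.1, H.dnm h.2⟩

theorem dlc {z : Cob Laz m} {ω : ℕ} (e : m + s = s') {o : WC' → WC'}
    {f : (G (s + 1) → A) → G (s' + 1) → A} (ho : OP (D.L s) (ix s) (D.L s') (ix s') o f)
    (hr : ∀ (w w' : ℤ) a b y u, s ≤ 59 → w' ≤ 90 → ω + w = w' → b ≤ a + 3 → Rv p3 R s w a b y u →
      Rv p3 R s' w' (j + a) (j + b) (P236EL.lc _ e z y) (f u)) (h : DV R D ix s x v) :
    DV R D ix s' (P236EL.lc _ e z x) (WC'.op (D.L s') s ω 0 j o v) :=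
  WC'.Ok.bind h fun T a b p ⟨u, h1, h2⟩ k hk => by
    obtain ⟨h3, h4⟩ := grd_spec hk
    have h7 := h2.hb
    obtain ⟨_, _, b', p', ⟨rfl, rfl, h8, h9⟩, h10⟩ := (ho _ _ (WC'.ok_pure h2)).fit (H.ok s')
      (show j + b ≤ j + a + 3 by omega) k h4
    exact ⟨_, _, b', p', ⟨_, (hr T _ a b x u (Nat.le_of_ble_eq_true (grd_spec h3).1) (H.le h9.hT)
      ((add_comm _ _).trans (Nat.cast_add T ω).symm) h7 h1).mono le_rfl h8, h9⟩, h10⟩

theorem dtm {t : Cob Laz 1} (ht : IsT1 3 t) (k : ℕ) (hz : (fun _ => t ^ k) ∈ ZS k 1)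
    (e : 1 + s = s') (h : DV R D ix s x v) :
    DV R D ix s' (P236EL.lc _ e (t ^ k) x) (WC'.ctm D s k v) := by
  obtain rfl : s' = s + 1 := by omega
  exact H.dlc e (op_tm H.cx k) (fun _ _ _ _ _ _ h1 h2 h3 h4 h5 => by
    simpa only [zero_add] using H.wd.tm ht (by omega) h2 hz h3 e h4 h5) h

theorem db1 {f : ℕ} {z : Cob Laz 1} {c : Cob Laz 2} (hz : Grk (f + 1) (k + 2) z c) (e : 2 + s = s')
    (h : DV R D ix s x v) : DV R D ix s' (P236EL.lc _ e c x) (WC'.cb1 D Tm s (3 ^ f) k v) := by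
  obtain rfl : s' = s + 2 := by omega
  have h0 : (3 : ℤ) ^ (f + 1) * (4 * (k + 2 : ℕ) - 1) = (3 ^ f * 3 * (4 * k + 7) : ℕ) := by
    push_cast
    ring
  exact H.dlc e (op_b1 H.cx f k)
    (fun _ _ _ _ _ _ h1 h2 h3 => H.wd.bk hz h1 h2 (h0 ▸ h3) e rfl) h

theorem dexa (h : DV R D ix s x v) {κ : P → Bool} (hc : WC'.exa (D.L s) T a b v κ = true) :
    ∃ u p, Rv p3 R s T a b x u ∧ VR (D.L s) (ix s) T a b (cst' p) u ∧ κ p = true := by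
  obtain ⟨T', a', b', p', ⟨u, h1, h2⟩, h3⟩ := h _ hc
  obtain ⟨h4, h5⟩ := grd_spec h3
  obtain ⟨h6, h7⟩ := grd_spec h4
  obtain rfl := Nat.eq_of_beq_eq_true h6
  have h8 : mn b' b ≤ b' := mn_eq b' b ▸ min_le_left _ _
  have h9 := vr_cut (H.ok s) h2.hT h2.hb h2.vp (Nat.le_of_ble_eq_true h7) h8
  obtain ⟨p, h10, h11⟩ := h9.run _ h5
  obtain ⟨h12, h13⟩ := grd_spec h11
  have h14 := Nat.eq_of_beq_eq_true h12
  rw [h14] at h8 h10
  exact ⟨u, p, h1.mono (Nat.le_of_ble_eq_true h7) h8, vr_cst ⟨h9.hz, h10⟩, h13⟩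

/-- a cocycle which is a coboundary modulo filtration `N` -/
theorem dhi (hx : x ∈ ZC 3 θ (R.deg 0) T 3 s) (h : DV R D ix s x v)
    (hc : WC'.hiC D s T k v = true) (hk : k ≤ N) (hv : WC'.vaC D s T k N = true) :
    x ∈ BI θ (R.deg 0) T (k - 3) N s := by
  obtain ⟨h1, h2, h3, h4⟩ := H.bnd hc
  obtain ⟨u, p, h5, h6, h7⟩ := H.dexa h h4
  exact H.wd.hi (by omega) h3 hx (h5.congr (by
    simpa using H.cx.inB' (add_zero _).symm h2 (show k ≤ k - 3 + 3 by omega) h6 h7)) hk fun _ h h' => H.va hv h h' _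

/-- generators in filtration `k` -/
theorem dk3 {S : AddSubgroup (G (s + 1) → A)} {l : List WC'}
    (hl : ∀ v ∈ l, ∃ z, DV R D ix s z v ∧ ∀ u, Rv p3 R s T (k - 2) (k + 1) z u → u ∈ S)
    (hc : WC'.k3C D s T k l = true) : R.K3s 3 s T k S := by
  obtain ⟨-, h2, -, h4⟩ := H.bnd hc
  suffices h : ∀ κ, WC'.runW (D.L s) T (k - 2) (k + 1) l κ = true → ∃ l' φ,
      List.Forall₂ (VR (D.L s) (ix s) T (k - 2) (k + 1)) l' φ ∧ (∀ u ∈ φ, u ∈ S) ∧ κ l' = true by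
    obtain ⟨l', φ, h5, h6, h7⟩ := h _ h4
    exact H.cx.k3s (add_zero _).symm h2 h5 h6 h7
  clear hc h4
  induction l with
  | nil => exact fun _ hc => ⟨[], [], .nil, (fun _ h => nomatch h), hc⟩
  | cons v l ih =>
    intro κ hc
    obtain ⟨⟨z, h1, h1'⟩, hl⟩ := List.forall_mem_cons.1 hl
    obtain ⟨u, p, h3, h4, h5⟩ := H.dexa h1 hc
    obtain ⟨l', φ, h6, h7, h8⟩ := ih hl _ h5
    exact ⟨_, u :: φ, .cons h4 h6, List.forall_mem_cons.2 ⟨h1' u h3, h7⟩, h8⟩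

theorem dds {l : List WC'} (hl : ∀ v ∈ l, ∃ z, DV R D ix s z v ∧
    ∀ u, Rv p3 R s T (k - 2) (k + 1) z u → u ∈ Sl R θ s (k - 2) (k + 1) (N + 1) T)
    (hc : WC'.k3C D s T k l = true) (hN : k + 3 ≤ N) : Ds R θ s k (k + 1) N T :=
  H.wd.ds_from (by have := (H.bnd hc).1; omega) (H.bnd hc).2.2.1 hN fun k' h1 h2 => by
    obtain rfl : k' = k := by omega
    exact H.dk3 hl hc

/-- **a cochain whose differential is a multiple of `g`** -/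
theorem alm {g : G 0 → Cob Laz (s + 1)} (hg : g ∈ ZC 3 θ (R.deg 0) T 3 (s + 1))
    (h : DV R D ix (s + 1) g v) (k : ℕ) (l : List Tr) (hc : WC'.cyC D s T k (k + 3) l = true)
    (h1 : WC'.vaC D (s + 1) T (k + 3) n = true) (h2 : WC'.k3C D (s + 1) T n [v] = true)
    (h3 : WC'.vaC D (s + 1) T (n + 1) (T + 1) = true) :
    ∃ z, DV R D ix s z (WC'.nmv D s T k (min (k + 1) (k + 3)) l) ∧
      ∃ g' ∈ zmultiples g, DD θ s z - g' ∈ QW 3 Laz (R.deg 0) T 3 (s + 1) :=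
  (H.wd.alm (H.bnd hc).1 (H.bnd hc).2.2.1 (zmultiples_le_of_mem hg) (fun k' hk => by
    rcases lt_trichotomy k' n with h4 | rfl | h4
    · exact H.va h1 hk h4 _
    · exact H.dk3 (List.forall_mem_singleton.2 ⟨g, h, fun _ h => Rv.mem_RP (mem_zmultiples g) h⟩) h2
    · exact (H.kv h3 k' h4 List.not_mem_nil).trans (sup_le_sup_right bot_le _))
    (H.cy le_rfl hc)).imp fun _ h => ⟨H.dnm h.1, h.2⟩

end Wx

theorem dv_one {t : Cob Laz 1} (ht : IsT1 3 t) (hT : T ≤ 90) : DV rS (dS T) iS 0 (fun _ => 1)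
    (WC'.nmv (dS T) 0 0 0 (min 3 (0 + 3)) [⟨0, 0, 0, 0, 0, 1⟩]) := by
  have h1 : (fun _ => 1) ∈ ZS 0 0 := by simpa using zs_v ht 0
  refine (wS T hT).dnm ((Rv.self_zero h1.1).cast rfl rfl ?_)
  refine (congrArg _ (_root_.funext fun _ => (one_smul ℤ _).symm)).trans
    ((Ph_cells 1 fun _ => 1).trans ?_)
  rw [map_one, Rs.star_one]
  funext w
  rw [eq_g0 w]
  simp [vL, Sq.rs, P236F.g0, P236K2.mk4]

theorem DV.base {z : Cob Laz m} {e : m + 0 = m} (h : DV rS (dS T) iS m (lc _ e z fun _ => 1) v) :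
    DV rS (dS T) iS m (fun _ => z) v :=
  (show lc _ e z (fun _ => 1) = fun _ => z from _root_.funext fun _ => cupE_one z) ▸ h

end Vale.Agent.P236EL

end
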