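import Vale.Agent.P236F.Nm

/-!
# P236F / F330 : facts about the stems 329 and 330 of the three cell complex
-/

noncomputable section

namespace Vale.Agent.P236F

open Vale.Agent.P251.F Vale.Agent.P251.I Vale.Agent.P236SY Vale.Agent.P236R Vale.Agent.P236EL
open Vale.Agent.P236KE Vale.Agent.P236K3 AddSubgroup Vale.Agent.P236KE.S90

variable [hp : Fact (Nat.Prime 3)] {t : Cob Laz 1} (ht : IsT1 3 t)

include ht

theorem g295 {x c} (hx : Grk 1 1 x c) :
    ∃ G ∈ ZY t 77 13, lc _ (show 2 + 13 = 15 from rfl) c G ∉ BY t 86 15 := by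
  have H := wY ht 86 (by decide)
  obtain ⟨G, hG, h⟩ := H.named (s := 13) 77 1
    [⟨90, 1, 0, 0, 0, 1⟩, ⟨57, 2, 0, 0, 0, 2⟩, ⟨88, 2, 1, 0, 0, 2⟩] (by decide +kernel)
    (by decide +kernel)
  exact ⟨G, hG, H.ne (T := 86) (k := 1) (H.b2 hx rfl h) (.refl le_rfl) (by decide +kernel)⟩

theorem l330 : LY t 85 10 := (wY ht 85 (by decide)).line (T := 85) 0 [⟨83, 0, 0, 0, 0, 1⟩]
  (by decide +kernel) (by decide +kernel) (by decide +kernel)

theorem v62 : VY t 16 2 := ((wY ht 16 (by decide)).top (T := 16) (a := 0) (by decide +kernel)).van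

theorem v66 : VY t 17 2 := ((wY ht 17 (by decide)).top (T := 17) (a := 0) (by decide +kernel)).van

theorem v70 : VY t 18 2 := ((wY ht 18 (by decide)).top (T := 18) (a := 0) (by decide +kernel)).van

end Vale.Agent.P236F

end
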