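import Vale.Agent.P236F.Sc1
import Vale.Agent.P236F.Ck1
import Vale.Agent.P236F.Ck2
import Vale.Agent.P236F.Ck3
import Vale.Agent.P236F.Ck4
import Vale.Agent.P236F.Ck5
import Vale.Agent.P236EL.FRof
import Vale.Agent.P236KE.S90.Ok

/-!
# P236F / Fr : the facts `EA` and `FR` hold
-/

noncomputable section

namespace Vale.Agent.P236F

open Vale.Agent.P236EL Vale.Agent.P236KE Vale.Agent.P236K3 Vale.Agent.P236KE.S90
open Vale.Agent.P251.F Vale.Agent.P251.I

section

variable [Fact (Nat.Prime 3)]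

theorem sc_van : ∀ a ∈ vl, RY.KV a.2 a.1 0 [] := by
  simp only [vl, List.forall_mem_cons, List.not_mem_nil, false_imp_iff, implies_true, and_true]
  refine ⟨?_, ?_, ?_, ?_, ?_, ?_, ?_, ?_, ?_, ?_, ?_, ?_, ?_, ?_, ?_, ?_, ?_, ?_, ?_, ?_⟩
  exacts [kvY (by decide) y30_6, kvY (by decide) y31_10, kvY (by decide) y31_7, kvY (by decide)
    y33_8, kvY (by decide) y34_9, kvY (by decide) y36_10, kvY (by decide) y37_11, kvY (by decide)
    y38_10, kvY (by decide) y18_2, kvY (by decide) y19_6, kvY (by decide) y19_5, kvY (by decide)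
    y41_12, kvY (by decide) y41_8, kvY (by decide) y42_12, kvY (by decide) y42_8, kvY (by decide)
    y43_12, kvY (by decide) y87, kvY (by decide) y88, kvY (by decide) y89, kvY (by decide) y90]

theorem sc_l330 : RY.KV 14 86 0 [2] ∧ ∃ φ, RY.KL 14 86 2 φ :=
  ⟨kvY (c := [6, 9, 11, 14, 18, 87]) (by decide)
    ⟨y86_0, y86_1, y86_2, y86_3, y86_4, y86_5, Nat.lt_succ_self _⟩,
    (cx_ex (cxY 86 (by decide)) (T := 86) (l := [⟨89, 1, 1, 0, 0, 1⟩, ⟨90, 2, 0, 0, 0, 2⟩]) rfl le_rfl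
      (by decide +kernel) (by decide +kernel)).imp fun _ h => h.2⟩

/-- **All the finite checks hold.** -/
theorem sc : SC (sph.rs (ZMod 3)) rfl rfl :=
  ⟨sc_ea, sc_van, sc_ft, sc_g142, sc_g139, sc_n138, sc_n177, sc_l177, sc_u173, sc_l330⟩

end

/-- **The cohomology in degree two and weight nine.** -/
theorem ea : Vale.Agent.P236K.EA :=
  haveI : Fact (Nat.Prime 3) := ⟨Nat.prime_three⟩
  SC.ea' ok3 sc

/-- **The facts used in the steps R0 to R3.** -/
theorem fr {t : Cob Laz 1} (ht : IsT1 3 t) : FR t :=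
  haveI : Fact (Nat.Prime 3) := ⟨Nat.prime_three⟩
  SC.fr ok3 sc ht

end Vale.Agent.P236F

end
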