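import Vale.Agent.P236F.K272b
import Vale.Agent.P236F.F330
import Vale.Agent.P236R.Z330

/-!
# P236F / K272 : the product with `v_1` on the multiples of `β_4` in stem 330
-/

noncomputable section

namespace Vale.Agent.P236F

open Vale.Agent.P251.F Vale.Agent.P251.I Vale.Agent.P236SY Vale.Agent.P236R Vale.Agent.P236EL
open Vale.Agent.P236KE Vale.Agent.P236K3 AddSubgroup Vale.Agent.P236KE.S90

theorem unit_smul {M : Type*} [AddCommGroup M] (u : ℤˣ) (x : M) : (u : ℤ) • (u : ℤ) • x = x := by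
  rw [smul_smul, ← Units.val_mul, Int.units_mul_self, Units.val_one, one_smul]

section

variable [hp : Fact (Nat.Prime 3)]

/-- the leading term of a cocycle when one class survives in filtration zero -/
theorem _root_.Vale.Agent.P236EL.Wx.tri {G : ℕ → Type} [∀ q, Fintype (G q)] [DecidableEq (G 0)]
    {R : Rs 3 K G} {θ : G 0 → G 0 → Cob Laz 1} {D : KD} {ix : ∀ q, G (q + 1) → ℕ}
    {Tm s3 s4 s T : ℕ} (H : Wx R θ D ix Tm s3 s4) (l : List Tr) (h : WC'.liC D s T 0 l = true)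
    {x : G 0 → Cob Laz s} (hx : x ∈ ZC 3 θ (R.deg 0) T 3 s) : Rc R θ s T 0 1 x (vL (ix s) []) ∨
      ∃ u : ℤˣ, Rc R θ s T 0 1 ((u : ℤ) • x) (vL (ix s) l) := by
  obtain ⟨h1, h2, h3, h4⟩ := H.bnd h
  obtain ⟨h5, h6⟩ := grd_spec h4
  have h7 := Rc.of hx (Rv.self_zero (b := 1) hx.1)
  refine (em (Ph p3 R s x ∈ R.Bd s T 0 1)).imp (fun h8 => h7.congr (u' := 0) (by rwa [sub_zero]))
    fun h8 => ?_
  obtain ⟨u, hu⟩ := exists_unit (cx_kl (k := 0) H.cx (add_zero _).symm h2 (vr_vL (H.ok s) h5) h6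
    (H.wd.ic.Ph_mem_Cy (H.wd.ok' (by omega)) h3 le_rfl hx.1 (mem_Fl_zero x) (ZC_DD_Fl hx _))) h8
    ((p_zsmul (p := 3) (Q := 3) rfl (vL (ix s) l)).symm ▸ zero_mem _ : ((3 : ℕ) : ℤ) • _ ∈ _)
  exact ⟨u, unit_smul u (vL (ix s) l) ▸ (h7.congr hu).zsmul u⟩

variable {t : Cob Laz 1} (ht : IsT1 3 t)

include ht

theorem b4_mem {x c} (hx : Grk 0 4 x c) {𝒵} (hg : Hg rY (θY t) 4 (84 : ℕ) 𝒵) {F}
    (hF : F ∈ ZY t 69 4) : lc _ (show 2 + 4 = 6 from rfl) c F ∈ 𝒵 ⊔ BY t 84 6 := by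
  have H := wY ht 85 (by decide)
  have key : ∀ {F l}, Rc rY (θY t) 4 (69 : ℕ) 0 1 F (vL (iT 85 3 4) l) →
      WC'.cyC (dY 85) 4 69 0 3 l = true → WC'.inC (dY 85) 6 84 4 []
        (WC'.cb0 (dY 85) 85 4 2 (WC'.nmv (dY 85) 4 69 0 2 l)) = true →
      lc _ (show 2 + 4 = 6 from rfl) c F ∈ 𝒵 ⊔ BY t 84 6 := fun h h1 =>
    H.mem (H.b0 hx _ (H.nm' (H.ext' h (H.cy le_rfl h1) (by decide +kernel)) (by decide))) .nil hg
  rcases H.tri (T := 69) [⟨27, 0, 0, 0, 0, 1⟩] (by decide +kernel) hF with h | ⟨u, h⟩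
  · exact key h (by decide +kernel) (by decide +kernel)
  · rw [← unit_smul u F, map_zsmul]
    exact zsmul_mem (key h (by decide +kernel) (by decide +kernel)) _

theorem top330 : ∃ y ∈ ZY t 84 6, Hg rY (θY t) 4 (84 : ℕ) (zmultiples y) ∧
    lc _ (show 0 + 6 = 6 from rfl) v1 y ∉ BY t 85 6 := by
  have H := wY ht 85 (by decide)
  obtain ⟨y, hy, h1⟩ := H.named (s := 6) 84 11
    [⟨58, 0, 11, 0, 0, 1⟩, ⟨103, 2, 9, 0, 0, 1⟩, ⟨27, 10, 1, 0, 0, 1⟩, ⟨73, 11, 0, 0, 0, 1⟩,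
      ⟨99, 0, 12, 0, 0, 2⟩, ⟨99, 9, 0, 3, 0, 2⟩, ⟨59, 3, 9, 0, 0, 2⟩, ⟨16, 6, 5, 1, 0, 2⟩,
      ⟨105, 8, 3, 1, 0, 2⟩, ⟨108, 9, 3, 0, 0, 2⟩, ⟨100, 2, 11, 0, 0, 2⟩, ⟨106, 10, 2, 1, 0, 2⟩,
      ⟨64, 10, 3, 0, 0, 2⟩, ⟨109, 11, 2, 0, 0, 1⟩] (by decide +kernel) (by decide +kernel)
  exact ⟨y, hy, H.skip (b := 11) (by decide +kernel) (H.step (.one h1) (by decide +kernel)
    (H.top (by decide +kernel))),
    H.ne (T := 85) (k := 12) (H.v1 ht rfl h1) (ds335 ht) (by decide +kernel)⟩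

theorem k272 {x c} (hx : Grk 0 4 x c) {F} (hF : F ∈ ZY t 69 4)
    (h : lc _ (show 0 + 6 = 6 from rfl) v1 (lc _ (show 2 + 4 = 6 from rfl) c F) ∈ BY t 85 6) :
    lc _ (show 2 + 4 = 6 from rfl) c F ∈ BY t 84 6 := by
  obtain ⟨y, hy, h1, h2⟩ := top330 ht
  by_contra h3
  obtain ⟨u, hu⟩ := exists_unit (b4_mem ht hx h1 hF) h3 (three_mem hy.1)
  have h4 := lcB (mc_Y ht) (show 0 + 6 = 6 from rfl) (zs_v1 ht) (w' := 85) rfl hu
  rw [map_sub, map_zsmul] at h4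
  have h5 := zsmul_mem (sub_mem h h4) (u : ℤ)
  rw [sub_sub_cancel, unit_smul] at h5
  exact h2 h5

end

/-- **The facts about the stems 329 and 330.** -/
theorem f330 {t : Cob Laz 1} (ht : IsT1 3 t) : F330 t :=
  haveI : Fact (Nat.Prime 3) := ⟨Nat.prime_three⟩
  ⟨g295 ht, l330 ht, v62 ht, v66 ht, v70 ht, fun hx _ => k272 ht hx⟩

end Vale.Agent.P236F

end
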