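import Vale.Agent.P236F.Dv

/-!
# P236F / K272a : the cochains of stem 335 and degree 5 of the three cell complex
-/

noncomputable section

namespace Vale.Agent.P236F

open Vale.Agent.P251.F Vale.Agent.P251.I Vale.Agent.P236SY Vale.Agent.P236R Vale.Agent.P236EL
open Vale.Agent.P236KE Vale.Agent.P236K3 AddSubgroup Vale.Agent.P236KE.S90

variable [hp : Fact (Nat.Prime 3)] {t : Cob Laz 1} (ht : IsT1 3 t)

include ht

theorem h3_b12 {x c} (hx : Grk 1 4 x c) :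
    lc (Fin 1) (show 1 + 2 = 2 + 1 from rfl) (t ^ 27) (fun _ => c) ∈
      BI 0 (fun _ => 0) 72 9 13 3 := by
  have H := wS 72 (by decide)
  have h1 := H.dtm ht 27 (zs_27 ht) (show 1 + 2 = 2 + 1 from rfl)
    (DV.base (H.db1 hx (show 2 + 0 = 2 from rfl) (dv_one ht (by decide))))
  have h2 := lcZ H.wd.mc (show 1 + 2 = 2 + 1 from rfl) (zs_27 ht) (w' := (72 : ℕ)) rfl
    (hx.zc (ω := 45) rfl)
  exact H.dhi (k := 12) h2 h1 (by decide +kernel) (by decide) (by decide +kernel)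

theorem alm228 (k : ℕ) (l : List Tr) (h : WC'.cyC (dY 85) 4 58 k (k + 3) l = true)
    (h' : WC'.vaC (dY 85) 5 58 (k + 3) 9 = true) (hk : k + 1 ≤ 9) :
    ∃ z, DV rY (dY 85) (iT 85 3) 5 z
      (WC'.ctm (dY 85) 4 27 (WC'.nmv (dY 85) 4 58 k (min (k + 1) (k + 3)) l)) ∧
        ∀ u, Rv p3 rY 5 (85 : ℕ) (k - 2) (k + 1) z u →
          u ∈ Sl rY (θY t) 5 (k - 2) (k + 1) (12 + 1) (85 : ℕ) := by
  have H := wY ht 85 (by decide)
  obtain ⟨x, c, hx⟩ := exists_grk 1 4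
  obtain ⟨g, hg, h1⟩ := H.dlift (s := 3) 13 0 [⟨35, 0, 0, 0, 0, 1⟩, ⟨65, 1, 0, 0, 0, 1⟩]
    (by decide +kernel) (by decide +kernel)
  obtain ⟨z, h2, h3⟩ := H.alm (n := 9)
    (lcZ H.wd.mc (show 2 + 3 = 4 + 1 from rfl) (hx.zc (ω := 45) rfl) (w' := (58 : ℕ)) rfl hg)
    (H.db1 hx _ h1) k l h h' (by decide +kernel) (by decide +kernel)
  exact ⟨_, H.dtm ht 27 (zs_27 ht) rfl h2,
    H.wd.slm _ _ _ (zs_27 ht) (h3_b12 ht hx) hg rfl h3 (by omega) hk⟩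

theorem ds335_0 : Ds rY (θY t) 5 0 1 12 (85 : ℕ) :=
  (wY ht 85 (by decide)).dds (List.forall_mem_singleton.2 (alm228 ht 0
    [⟨22, 0, 0, 0, 0, 1⟩, ⟨6, 0, 0, 0, 1, 1⟩] (by decide +kernel) (by decide +kernel) (by decide)))
    (by decide +kernel) (by decide)

theorem ds335_1 : Ds rY (θY t) 5 1 3 12 (85 : ℕ) := by
  have H := wY ht 85 (by decide)
  obtain ⟨y, -, h⟩ := H.named (s := 4) 76 1 [⟨16, 0, 0, 0, 1, 1⟩, ⟨70, 3, 0, 0, 0, 2⟩]
    (by decide +kernel) (by decide +kernel)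
  exact (H.ds_step (k := 1) (.one (H.tm ht 9 (zs_nine ht) rfl h)) (by decide +kernel)
    (by decide)).trans (H.ds_skip (by decide +kernel) (by decide))

end Vale.Agent.P236F

end
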