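import Vale.Agent.P236F.K272a

/-!
# P236F / K272b : the cochains of stem 335 and degree 5 of the three cell complex, continued
-/

noncomputable section

namespace Vale.Agent.P236F

open Vale.Agent.P251.F Vale.Agent.P251.I Vale.Agent.P236SY Vale.Agent.P236R Vale.Agent.P236EL
open Vale.Agent.P236KE Vale.Agent.P236K3 AddSubgroup Vale.Agent.P236KE.S90

variable [hp : Fact (Nat.Prime 3)] {t : Cob Laz 1} (ht : IsT1 3 t)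

include ht

theorem ds335_3 : Ds rY (θY t) 5 3 4 12 (85 : ℕ) := by
  have H := wY ht 85 (by decide)
  obtain ⟨y, h1, h2⟩ := H.dlift (s := 4) 76 3
    [⟨57, 0, 0, 3, 0, 1⟩, ⟨70, 3, 0, 0, 0, 1⟩, ⟨8, 0, 0, 4, 0, 1⟩, ⟨27, 3, 1, 0, 0, 2⟩,
      ⟨108, 4, 1, 0, 0, 1⟩, ⟨109, 5, 0, 0, 0, 1⟩, ⟨69, 5, 0, 0, 0, 2⟩] (by decide +kernel)
    (by decide +kernel)
  exact H.dds (List.forall_mem_cons.2 ⟨⟨_, H.dtm ht 9 (zs_nine ht) (show 1 + 4 = 5 from rfl) h2,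
    fun _ h => ⟨_, h, ZC_DD_Fl (lcZ H.wd.mc _ (zs_nine ht) rfl h1) _⟩⟩,
    List.forall_mem_singleton.2 (alm228 ht 3
      [⟨47, 0, 0, 3, 0, 1⟩, ⟨51, 1, 0, 2, 0, 2⟩, ⟨52, 1, 0, 2, 0, 2⟩, ⟨57, 0, 2, 1, 0, 2⟩,
        ⟨62, 3, 0, 0, 0, 2⟩, ⟨87, 1, 0, 3, 0, 1⟩, ⟨8, 0, 2, 2, 0, 2⟩, ⟨54, 0, 3, 1, 0, 1⟩,
        ⟨16, 1, 2, 1, 0, 1⟩, ⟨99, 2, 1, 1, 0, 1⟩, ⟨101, 2, 2, 0, 0, 1⟩, ⟨93, 1, 3, 1, 0, 2⟩,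
        ⟨98, 0, 5, 0, 0, 1⟩, ⟨98, 3, 1, 1, 0, 2⟩, ⟨102, 4, 1, 0, 0, 2⟩] (by decide +kernel)
      (by decide +kernel) (by decide))⟩) (by decide +kernel) (by decide)

theorem ds335_4 : Ds rY (θY t) 5 4 10 12 (85 : ℕ) := by
  have H := wY ht 85 (by decide)
  obtain ⟨x, c, hx⟩ := exists_grk 1 2
  obtain ⟨y, -, h⟩ := H.named (s := 3) 64 6
    [⟨35, 0, 3, 3, 0, 1⟩, ⟨38, 3, 0, 3, 0, 1⟩, ⟨42, 3, 1, 2, 0, 1⟩, ⟨47, 5, 0, 1, 0, 2⟩,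
      ⟨49, 5, 1, 0, 0, 1⟩, ⟨65, 1, 3, 3, 0, 1⟩, ⟨5, 2, 2, 3, 0, 2⟩, ⟨6, 0, 5, 2, 0, 1⟩,
      ⟨39, 2, 3, 2, 0, 1⟩, ⟨72, 1, 5, 1, 0, 2⟩, ⟨72, 4, 1, 2, 0, 2⟩, ⟨44, 2, 4, 1, 0, 2⟩,
      ⟨44, 5, 0, 2, 0, 2⟩, ⟨16, 3, 4, 0, 0, 2⟩, ⟨79, 4, 3, 0, 0, 1⟩, ⟨66, 3, 2, 3, 0, 1⟩,
      ⟨69, 3, 3, 2, 0, 2⟩, ⟨71, 1, 6, 1, 0, 2⟩, ⟨71, 4, 2, 2, 0, 1⟩, ⟨73, 3, 4, 1, 0, 1⟩,
      ⟨73, 6, 0, 2, 0, 2⟩, ⟨74, 3, 4, 1, 0, 1⟩, ⟨74, 6, 0, 2, 0, 1⟩, ⟨45, 4, 3, 1, 0, 1⟩,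
      ⟨77, 2, 6, 0, 0, 1⟩, ⟨77, 5, 2, 1, 0, 2⟩, ⟨78, 5, 3, 0, 0, 1⟩] (by decide +kernel)
    (by decide +kernel)
  exact (H.ds_skip (b := 9) (by decide +kernel) (by decide)).trans (H.ds_step
    (.one (H.b1 hx (show 2 + 3 = 5 from rfl) h)) (by decide +kernel) (by decide))

theorem ds335 : Ds rY (θY t) 5 0 10 12 (85 : ℕ) :=
  (ds335_0 ht).trans ((ds335_1 ht).trans ((ds335_3 ht).trans (ds335_4 ht)))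

end Vale.Agent.P236F

end
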