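import Vale.Agent.P236F.Ck6
import Vale.Agent.P236EL.SC
import Vale.Agent.P236KE.C38

/-!
# P236F / Sc1 : the checks with explicit vectors
-/

noncomputable section

namespace Vale.Agent.P236F

open MvPolynomial Vale.Agent.P236EL Vale.Agent.P236KE Vale.Agent.P236K3 Vale.Agent.P236KE.S90

variable [Fact (Nat.Prime 3)]

/-- the resolution of the sphere -/
abbrev RS : Rs 3 K sph.G := sph.rs K
/-- the resolution of `C α` -/
abbrev RA : Rs 3 K (TG sph.G (Fin 2)) := RS.cA rfl rfl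
/-- the resolution of `Y` -/
abbrev RY : Rs 3 K (TG sph.G (Fin 3)) := RS.cY rfl rfl

theorem kvS {s T a : ℕ} {l c : List ℕ} (hT : T < 120) (h : VL (dS T) s T l a c) :
    RS.KV s T a l := fun _ => cx_vl (cxS T hT) (add_zero _).symm le_rfl h

theorem kvA {s T a : ℕ} {l c : List ℕ} (hT : T < 120) (h : VL (dA T) s T l a c) :
    RA.KV s T a l := fun _ => cx_vl (cxA T hT) (add_zero _).symm le_rfl h

theorem kvY {s T a : ℕ} {l c : List ℕ} (hT : T < 120) (h : VL (dY T) s T l a c) :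
    RY.KV s T a l := fun _ => cx_vl (cxY T hT) (add_zero _).symm le_rfl h

theorem un_eq {ι : Type} [Fintype ι] [DecidableEq ι] (Y : Ga K ι) (c : ι) :
    (RS.tens rfl rfl (Y.cm 3)).un c = bv (g0, c) 0 := funext fun a => by
  obtain ⟨w, c'⟩ := a
  refine (Rs.tens_un Y c w c').trans ?_
  rw [eq_g0 w]
  split_ifs with h
  · rw [h, bv_self]
    exact map_one _
  · exact (bv_ne (fun h1 => h (congrArg Prod.snd h1).symm) _).symm

theorem sc_ea : RS.KV 2 9 0 [0] ∧ ∃ φ, RS.KL 2 9 0 φ :=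
  ⟨kvS (by decide) s9, (cx_ex (cxS 9 (by decide)) (T := 9) (l := [⟨3, 0, 0, 0, 0, 1⟩]) rfl le_rfl (by decide +kernel)
    (by decide +kernel)).imp fun _ h => h.2⟩

theorem sc_ft : RS.KV 2 27 9 [] ∧ RS.KV 7 36 0 [6] ∧
    ∃ u ∈ RS.Cy 1 27 6 9, RS.KL 7 36 6 (RS.bm 5 1 (RS.bm 3 1 (RS.bm 1 1 u))) := by
  have h := cxS 36 (by decide)
  obtain ⟨u, hu⟩ := exists_VR (T := 27) (a := 6) (b := 9)
    (l := [⟨1, 0, 6, 0, 0, 1⟩, ⟨2, 5, 0, 1, 0, 1⟩, ⟨0, 2, 6, 0, 0, 1⟩]) (h.st 1).ok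
    (by decide +kernel)
  refine ⟨kvS (by decide) s27, kvS (by decide) s36_7, u, h.cy (s' := 2) rfl rfl (by decide) le_rfl le_rfl hu
    (by decide +kernel), ?_⟩
  have h1 := h.re (a' := 6) (b' := 7) (by decide) le_rfl le_rfl (by decide) hu
  have h2 := cx_bm h 1 (s1 := 2) (s2 := 3) (k2 := 2) (T1 := 28) (T2 := 29) (T3 := 30)
    rfl rfl rfl rfl rfl rfl (by decide) (by decide) h1
  have h3 := cx_bm h 1 (s := 3) (s1 := 4) (s2 := 5) (k2 := 2) (T1 := 31) (T2 := 32) (T3 := 33)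
    rfl rfl rfl rfl rfl rfl (by decide) (by decide) h2
  have h4 := cx_bm h 1 (s := 5) (s1 := 6) (s2 := 7) (k2 := 2) (T1 := 34) (T2 := 35) (T3 := 36)
    rfl rfl rfl rfl rfl rfl (by decide) (by decide) h3
  exact cx_kl h (s := 7) (T := 36) rfl le_rfl (h4.low (by decide)) (by decide +kernel)

theorem sc_g142 : RS.KV 2 36 0 [8] ∧ RS.KL 2 36 8 (vm 8 (RS.tm 1 27 (RS.tm 0 1 1))) := by
  have h := cxS 36 (by decide)
  have h1 : VR ((dS 36).L 0) Fin.val 0 0 1 _ (bv g0 0) :=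
    vr_bv (i := 0) g0 rfl (by decide +kernel) Nat.one_pos
  have h2 := cx_tm h 1 (T' := 1) (s' := 1) rfl rfl (by decide) (by decide) h1
  have h3 := cx_tm h 27 (s := 1) (T' := 28) (s' := 2) rfl rfl (by decide) (by decide) h2
  rw [one_eq]
  exact ⟨kvS (by decide) s36_2, cx_kl h (s := 2) (T := 36) rfl le_rfl (vr_vm h3 8 rfl rfl (by decide))
    (by decide +kernel)⟩

theorem sc_g139 : RA.KV 1 35 0 [8, 33] ∧ RA.KL 1 35 8 (vm 8 (RA.tm 0 27 (RA.un (0 : Fin 2)))) ∧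
    RA.KL 1 35 33 (vm 33 (RA.tm 0 2 (RA.un (0 : Fin 2)) + RA.tm 0 1 (RA.un (1 : Fin 2)))) := by
  have h := cxA 35 (by decide)
  have h1 : VR ((dA 35).L 0) (tix ((dS 35).L 0) Fin.val Fin.val) 0 0 1 _
      (bv (g0, (0 : Fin 2)) 0) := vr_bv (i := 0) _ rfl (by decide +kernel) Nat.one_pos
  have h2 : VR ((dA 35).L 0) (tix ((dS 35).L 0) Fin.val Fin.val) 1 0 1 _
      (bv (g0, (1 : Fin 2)) 0) := vr_bv (i := 1) _ (by decide +kernel) (by decide +kernel) Nat.one_pos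
  have h3 := cx_tm h 27 (T' := 27) (s' := 1) rfl rfl (by decide) (by decide) h1
  have h4 := (cx_tm h 2 (T' := 2) (s' := 1) rfl rfl (by decide) (by decide) h1).add
    (cx_tm h 1 (T' := 2) (s' := 1) rfl rfl (by decide) (by decide) h2)
  rw [un_eq, un_eq]
  exact ⟨kvA (by decide) a35, cx_kl h (s := 1) (T := 35) rfl le_rfl (vr_vm h3 8 rfl rfl (by decide))
    (by decide +kernel), cx_kl h (s := 1) (T := 35) rfl le_rfl (vr_vm h4 33 rfl rfl (by decide))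
    (by decide +kernel)⟩

theorem sc_n138 : RA.KV 5 9 0 [1] ∧ ∃ φ, RA.KL 5 9 1 φ ∧ RA.tm 5 27 φ ∉ RA.Bd 6 36 0 2 := by
  have h := cxA 36 (by decide)
  obtain ⟨u, h1, h2⟩ := cx_ex h (s := 5) (T := 9) (k := 1) (l := [⟨45, 1, 0, 0, 0, 1⟩]) rfl
    (by decide) (by decide +kernel) (by decide +kernel)
  exact ⟨kvA (by decide) a9, u, h2, h.noB (T := 36) rfl le_rfl (by decide)
    (cx_tm h 27 (s' := 6) rfl rfl le_rfl (by decide) h1) (by decide +kernel)⟩

theorem sc_n177 : RY.KV 6 37 0 [1] ∧ ∃ φ, RY.KL 6 37 1 φ ∧ RY.tm 6 9 φ ∉ RY.Bd 7 46 0 2 := by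
  have h := cxY 46 (by decide)
  obtain ⟨u, h1, h2⟩ := cx_ex h (s := 6) (T := 37) (k := 1) (l := [⟨99, 1, 0, 0, 0, 1⟩]) rfl
    (by decide) (by decide +kernel) (by decide +kernel)
  exact ⟨kvY (by decide) y37, u, h2, h.noB (T := 46) rfl le_rfl (by decide)
    (cx_tm h 9 (s' := 7) rfl rfl le_rfl (by decide) h1) (by decide +kernel)⟩

theorem sc_l177 : RY.KV 7 46 0 [1] ∧ ∃ φ, RY.KL 7 46 1 φ :=
  ⟨kvY (by decide) y46, (cx_ex (cxY 46 (by decide)) (T := 46) (l := [⟨12, 1, 0, 0, 0, 1⟩]) rfl le_rfl (by decide +kernel)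
    (by decide +kernel)).imp fun _ h => h.2⟩

theorem sc_u173 : RS.KV 8 45 3 [] ∧ RS.Cy 7 45 1 3 ≤ RS.Bd 7 45 0 2 ∧ RY.KV 8 40 3 [] ∧
    RY.Cy 7 40 1 3 ≤ RY.Bd 7 40 0 2 ∧ ∃ u ∈ RS.Cy 7 45 0 3, ∃ Ω ∈ RY.Cy 7 40 0 3,
      ∃ z, Cf RS RS 7 38 z 0 2 7 45 ∧ (fun w => Ω (w, 2)) - fa 3 (z 0) 1 ∈ RS.Bd 7 38 0 2 ∧
        vm 1 (fa 3 (z 7) u) ∉ RS.Bd 14 84 0 3 := by
  let g : sph.G 8 := ⟨12, by decide +kernel⟩
  let g' : sph.G 8 := ⟨10, by decide +kernel⟩
  have e : (fun w => bv (g', (2 : Fin 3)) 0 (w, 2)) = bv g' 0 := funext fun w => by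
    by_cases h : w = g'
    · rw [h, bv_self, bv_self]
    · rw [bv_ne h, bv_ne fun h1 => h (congrArg Prod.fst h1)]
  refine ⟨kvS (by decide) s45, cx_gen (cxS 45 (by decide)) (T := 45) rfl le_rfl (by decide) (by decide) (by decide)
    (by decide +kernel), kvY (by decide) y40, cx_gen (cxY 40 (by decide)) (T := 40) rfl le_rfl (by decide) (by decide)
    (by decide) (by decide +kernel), bv g 0, (cxS 45 (by decide)).cy (T := 45) (s' := 8) (b := 3) rfl rfl le_rfl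
    le_rfl le_rfl (vr_bv (i := 12) g rfl (by decide +kernel) (by decide)) (by decide +kernel),
    bv (g', (2 : Fin 3)) 0, (cxY 40 (by decide)).cy (T := 40) (s' := 8) (b := 3) rfl rfl le_rfl le_rfl le_rfl
    (vr_bv (i := 92) _ (by decide +kernel) (by decide +kernel) (by decide)) (by decide +kernel),
    _, C38.cf, ?_, ?_⟩
  · have h1 := vr_fa (T := 38) (a := 0) (b := 2) (st_zf sph C38.Z (m := 7) (ω := 38) (q := 0)
      (ds := C38.s0) (T := 38) (by decide) sph_k (by decide +kernel)) le_rfl le_rfl (by decide)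
      (vr_bv (i := 0) g0 rfl (by decide +kernel) (by decide))
    rw [one_eq, sub_eq_add_neg]
    exact e.symm ▸ (cxS 38 (by decide)).inB' (T := 38) rfl le_rfl (by decide)
      ((vr_bv (i := 10) g' rfl (by decide +kernel) (by decide)).add h1.neg) (by decide +kernel)
  · have h1 := vr_fa (T := 83) (a := 0) (b := 2) (st_zf sph C38.Z (m := 7) (ω := 38) (q := 7)
      (ds := C38.s7) (T := 84) (by decide) sph_k (by decide +kernel)) (by decide) (by decide)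
      (by decide) (vr_bv (i := 12) g rfl (by decide +kernel) (by decide))
    exact (cxS 84 (by decide)).noB (s := 14) (T := 84) rfl le_rfl (by decide) (vr_vm h1 1 rfl rfl (by decide))
      (by decide +kernel)

end Vale.Agent.P236F

end
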