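import Vale.Agent.P236K3.Top

/-!
# P236F / Tn : the data of the small complex of a cell comodule
-/

noncomputable section

namespace Vale.Agent.P236F

open MvPolynomial Vale.Agent.P236EL Vale.Agent.P236KE Vale.Agent.P236K2 Vale.Agent.P236K3

/-- cells: their number, their degrees and the inverse coaction -/
structure CD : Type where
  m : Nat
  d : Nat → Nat
  a : Nat → Nat → Nat

def tdg1 (Y : CD) (L : LD) (w c : Nat) : Nat := Nat.add (L.dg w) (Y.d c)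
def tdg0 (Y : CD) (L : LD) (n i w : Nat) : Nat := force (Nat.div i n) (tdg1 Y L w)
def tdg (Y : CD) (L : LD) (n i : Nat) : Nat := force (Nat.mod i n) (tdg0 Y L n i)
def tps0 (L : LD) (n N i w : Nat) : Nat := Nat.add (L.pos w) (Nat.mul (Nat.div i n) N)
def tps (L : LD) (n N i : Nat) : Nat := force (Nat.mod i n) (tps0 L n N i)
def tcm2 (L : LD) (N c ih r : Nat) : Nat :=
  Nat.lor ih (Nat.shiftLeft (Nat.land (L.cm r) (Nat.sub (Nat.shiftLeft (nat_lit 1) N) (nat_lit 1)))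
    (Nat.mul c N))
def tcm1 (Y : CD) (L : LD) (N r c ih : Nat) : Nat :=
  force (Nat.mod (Nat.add r (Nat.mul (nat_lit 2) (Y.d c))) (nat_lit 3)) (tcm2 L N c ih)
def tcm (Y : CD) (L : LD) (N r : Nat) : Nat := loop (tcm1 Y L N r) Y.m (nat_lit 0)
def tL2 (Y : CD) (L : LD) (n N : Nat) : LD :=
  ⟨L.T, Nat.mul Y.m n, Nat.mul Y.m N, tdg Y L n, tps L n N, tcm Y L N⟩
def tL1 (Y : CD) (L : LD) (n : Nat) : LD := force L.N (tL2 Y L n)
/-- the layout: one copy for each cell -/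
def tL (Y : CD) (L : LD) : LD := force L.n (tL1 Y L)

def tr4 (Y : CD) (r : Rw) (N e2 e3 e4 w c j : Nat) (acc : P) (x : Nat) : P :=
  pf (P.add (P.shl (P.sm (Y.a c j) (r.f x w e2 e3 e4)) (Nat.mul j N)) acc)
def tr3 (Y : CD) (r : Rw) (N x e2 e3 e4 w c j : Nat) (acc : P) : P :=
  force (Nat.add x (Nat.sub (Y.d c) (Y.d j))) (tr4 Y r N e2 e3 e4 w c j acc)
def tr2 (Y : CD) (r : Rw) (N x e2 e3 e4 w c : Nat) : P :=
  loop (tr3 Y r N x e2 e3 e4 w c) Y.m P.zero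
def tr1 (Y : CD) (r : Rw) (n N x i e2 e3 e4 w : Nat) : P :=
  force (Nat.div i n) (tr2 Y r N x e2 e3 e4 w)
def tr0 (Y : CD) (r : Rw) (n N x i e2 e3 e4 : Nat) : P :=
  force (Nat.mod i n) (tr1 Y r n N x i e2 e3 e4)
def tR2 (Y : CD) (r : Rw) (n N : Nat) : Rw := ⟨tr0 Y r n N⟩
def tR1 (Y : CD) (r : Rw) (L' : LD) (n : Nat) : Rw := force L'.N (tR2 Y r n)
/-- the rows -/
def tR (Y : CD) (r : Rw) (L L' : LD) : Rw := force L.n (tR1 Y r L')

def tK1 (Y : CD) (D : KD) (q : Nat) : LD := tL Y (D.L q)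
def tK3 (Y : CD) (D : KD) (q q' : Nat) : Rw := tR Y (D.r q) (D.L q) (D.L q')
def tK2 (Y : CD) (D : KD) (q : Nat) : Rw := force (Nat.succ q) (tK3 Y D q)
/-- the data of the complex with cells -/
def tK (Y : CD) (D : KD) : KD := ⟨tK1 Y D, tK2 Y D⟩

variable {ι : Type} [Fintype ι] [DecidableEq ι]

/-- the data describe the cells -/
structure CD.Ok (C : CD) (Y : Ga K ι) (ic : ι → ℕ) (o : ℤ) : Prop where
  inj : Function.Injective ic
  lt : ∀ c, ic c < C.m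
  sur : ∀ i < C.m, ∃ c, ic c = i
  d : ∀ c, Y.d c = C.d (ic c) + o
  a : ∀ c c', (C.a (ic c) (ic c') : K) = Y.a c c' * (-1) ^ (C.d (ic c) - C.d (ic c'))

variable {Y : CD} {Z' : Ga K ι} {ic : ι → ℕ} {o : ℤ} {W W' : Type} {L L' : LD} {ix : W → ℕ}
  {ix' : W' → ℕ}

/-- the index of a generator on a cell -/
def tix (L : LD) (ix : W → ℕ) (ic : ι → ℕ) (a : W × ι) : ℕ := ix a.1 + L.n * ic a.2

theorem tL_dg {i : ℕ} (hi : i < L.n) (c : ℕ) : (tL Y L).dg (i + L.n * c) = L.dg i + Y.d c := by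
  change L.dg ((i + L.n * c) % L.n) + Y.d ((i + L.n * c) / L.n) = _
  rw [Nat.add_mul_mod_self_left, Nat.mod_eq_of_lt hi, Nat.add_mul_div_left _ _ (by omega),
    Nat.div_eq_of_lt hi, zero_add]

theorem tL_pos {i : ℕ} (hi : i < L.n) (c : ℕ) : (tL Y L).pos (i + L.n * c) = L.pos i + c * L.N := by
  change L.pos ((i + L.n * c) % L.n) + (i + L.n * c) / L.n * L.N = _
  rw [Nat.add_mul_mod_self_left, Nat.mod_eq_of_lt hi, Nat.add_mul_div_left _ _ (by omega),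
    Nat.div_eq_of_lt hi, zero_add]

theorem tL_ex {i : ℕ} (hi : i < (tL Y L).n) : ∃ w < L.n, ∃ c < Y.m, i = w + L.n * c := by
  change i < Y.m * L.n at hi
  have h : 0 < L.n := Nat.pos_of_ne_zero fun h => by rw [h] at hi; omega
  exact ⟨_, Nat.mod_lt i h, _, (Nat.div_lt_iff_lt_mul h).2 hi, (Nat.mod_add_div i L.n).symm⟩

theorem tL_sz {i : ℕ} (hi : i < L.n) (c : ℕ) : (tL Y L).sz (i + L.n * c) ≤ L.sz i := by
  rw [LD.sz, LD.sz, tL_dg hi]
  change 3 * ((L.T - _) / 13) ≤ _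
  omega

theorem blk_eq {N a b c d : ℕ} (ha : a < N) (hb : b < N) (h : a + c * N = b + d * N) :
    a = b ∧ c = d := by
  have h1 := congrArg (· % N) h
  simp only [Nat.add_mul_mod_self_right, Nat.mod_eq_of_lt ha, Nat.mod_eq_of_lt hb] at h1
  subst h1
  exact ⟨rfl, Nat.eq_of_mul_eq_mul_right (by omega) (Nat.add_left_cancel h)⟩

theorem tcm_bit (Y : CD) (L : LD) (r m : ℕ) {p : ℕ} (hp : p < L.N) (c : ℕ) :
    (loop (tcm1 Y L L.N r) m 0).testBit (p + c * L.N) =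
      (decide (c < m) && (L.cm ((r + 2 * Y.d c) % 3)).testBit p) := by
  induction m with
  | zero => simp [loop]
  | succ m ih =>
    change (loop (tcm1 Y L L.N r) m 0 ||| (L.cm ((r + 2 * Y.d m) % 3) &&& (1 <<< L.N - 1)) <<<
      (m * L.N)).testBit _ = _
    rw [Nat.testBit_or, ih, Nat.testBit_shiftLeft, Nat.testBit_and, Nat.one_shiftLeft,
      Nat.testBit_two_pow_sub_one]
    rcases lt_trichotomy c m with h | rfl | h
    · have h1 := Nat.mul_le_mul_right L.N (Nat.succ_le_of_lt h)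
      rw [Nat.succ_mul] at h1
      simp [h, h.le, show ¬ m * L.N ≤ p + c * L.N by omega]
    · simp [hp]
    · have h1 := Nat.mul_le_mul_right L.N (Nat.succ_le_of_lt h)
      rw [Nat.succ_mul] at h1
      simp [h.le.not_gt, h.not_ge, show ¬ p + c * L.N - m * L.N < L.N by omega]

theorem tL_ok (hY : Y.Ok Z' ic o) (hL : L.Ok ix) : (tL Y L).Ok (tix L ix ic) := by
  refine ⟨hL.hT, fun a b h => ?_, fun a => ?_, fun i hi => ?_, fun i hi i' hi' j hj j' hj' h => ?_,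
    fun i hi => ?_, fun i hi j hj r => ?_⟩
  · rw [tix, tix, mul_comm, mul_comm L.n] at h
    have h1 := blk_eq (hL.lt _) (hL.lt _) h
    exact Prod.ext (hL.inj h1.1) (hY.inj h1.2)
  · have h1 := Nat.mul_le_mul_right L.n (Nat.succ_le_of_lt (hY.lt a.2))
    have h2 := hL.lt a.1
    rw [Nat.succ_mul] at h1
    change ix a.1 + L.n * ic a.2 < Y.m * L.n
    rw [mul_comm]
    omega
  · obtain ⟨w, hw, c, hc, rfl⟩ := tL_ex hi
    obtain ⟨w, rfl⟩ := hL.sur w hw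
    obtain ⟨c, rfl⟩ := hY.sur c hc
    exact ⟨(w, c), rfl⟩
  · obtain ⟨w, hw, c, -, rfl⟩ := tL_ex hi
    obtain ⟨w', hw', c', -, rfl⟩ := tL_ex hi'
    replace hj := hj.trans (tL_sz hw c)
    replace hj' := hj'.trans (tL_sz hw' c')
    have h1 := hL.top w hw
    have h2 := hL.top w' hw'
    rw [tL_pos hw, tL_pos hw', add_right_comm, add_right_comm (L.pos w')] at h
    obtain ⟨h3, rfl⟩ := blk_eq (by omega) (by omega) h
    rw [hL.disj w hw w' hw' j hj j' hj' h3]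
  · obtain ⟨w, hw, c, hc, rfl⟩ := tL_ex hi
    have h1 := tL_sz (Y := Y) hw c
    have h2 := hL.top w hw
    have h3 := Nat.mul_le_mul_right L.N (Nat.succ_le_of_lt hc)
    rw [Nat.succ_mul] at h3
    rw [tL_pos hw]
    change _ < Y.m * L.N
    omega
  · obtain ⟨w, hw, c, hc, rfl⟩ := tL_ex hi
    replace hj := hj.trans (tL_sz hw c)
    have h2 := hL.top w hw
    rw [tL_pos hw, tL_dg hw, add_right_comm]
    refine (tcm_bit Y L r Y.m (by omega) c).trans ?_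
    rw [hL.msk w hw j hj, decide_eq_true hc, Bool.true_and]
    exact decide_eq_decide.2 (by omega)

theorem CD.Ok.sum (hY : Y.Ok Z' ic o) {M : Type} [AddCommMonoid M] (f : ℕ → M) :
    ∑ c, f (ic c) = ∑ j ∈ Finset.range Y.m, f j :=
  Finset.sum_bij (fun w _ => ic w) (fun w _ => Finset.mem_range.2 (hY.lt w))
    (fun _ _ _ _ h => hY.inj h)
    (fun j hj => (hY.sur j (Finset.mem_range.1 hj)).imp' id fun _ h => ⟨Finset.mem_univ _, h⟩)
    fun _ _ => rfl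

variable [Fintype W] [Fintype W']

omit [DecidableEq ι] in
theorem cr_tL (hL : L.Ok ix) (S : ℕ → Prop) (u : W × ι → A) : cr (tL Y L) (tix L ix ic) S u =
    ∑ c, sh (ic c * L.N) (cr L ix S fun w => u (w, c)) := by
  rw [cr_apply, Fintype.sum_prod_type, Finset.sum_comm]
  refine Finset.sum_congr rfl fun c _ => ?_
  rw [cr_apply, map_sum]
  exact Finset.sum_congr rfl fun w _ => by rw [sh_crm, tix, tL_pos (hL.lt w)]

theorem loop_R {g : ℕ → P → P} {v : ℕ → V} (m : ℕ)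
    (h : ∀ j < m, ∀ x u, x.R u → (g j x).R (v j + u)) :
    (loop g m P.zero).R (∑ j ∈ Finset.range m, v j) := by
  induction m with
  | zero => exact P.R_zero
  | succ m ih =>
    rw [Finset.sum_range_succ_comm]
    exact h m m.lt_succ_self _ _ (ih fun j hj => h j (hj.trans m.lt_succ_self))

variable [Fact (Nat.Prime 3)]

theorem CD.Ok.ps (hY : Y.Ok Z' ic o) (c c' : ι) : (Z'.cm 3).ps c c' =
    (Y.a (ic c) (ic c') : Γ) * X 0 ^ (Y.d (ic c) - Y.d (ic c')) := by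
  change Z'.ent _ _ c c' = _
  rw [Ga.ent, ← map_natCast ((C : A →+* Γ).comp C), hY.a, map_mul, map_pow, map_neg, map_one,
    hY.d, hY.d, add_sub_add_right_eq_sub, Int.toNat_sub]
  exact (congrArg _ (neg_pow (X 0 : Γ) _)).trans (mul_assoc _ _ _).symm

omit [Fintype W] [Fintype W'] [Fact (Nat.Prime 3)] in
theorem tR_f (r : Rw) {i : ℕ} (hi : i < L.n) (x c e2 e3 e4 : ℕ) :
    (tR Y r L L').f x (i + L.n * c) e2 e3 e4 = loop (tr3 Y r L'.N x e2 e3 e4 i c) Y.m P.zero := by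
  change tr2 Y r L'.N x e2 e3 e4 ((i + L.n * c) % L.n) ((i + L.n * c) / L.n) = _
  rw [Nat.add_mul_mod_self_left, Nat.mod_eq_of_lt hi, Nat.add_mul_div_left _ _ (by omega),
    Nat.div_eq_of_lt hi, zero_add, tr2]

theorem ps_tens (hY : Y.Ok Z' ic o) (hL : L.Ok ix) (y : W → (ℕ →₀ ℕ) → A) (c : ι) (n : ℕ)
    (F : ℕ →₀ ℕ) (g : Γ) : ps (tL Y L) (tix L ix ic)
      (fun b : W × ι => mulF ((Z'.cm 3).ps c b.2) (y b.1)) n (monomial F 1 * g) =
    ∑ j ∈ Finset.range Y.m, sh (j * L.N) ((Y.a (ic c) j : K) • ps L ix y n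
      (monomial (F + Finsupp.single 0 (Y.d (ic c) - Y.d j)) 1 * g)) := by
  rw [ps_apply, cr_tL hL, ← hY.sum]
  refine Finset.sum_congr rfl fun c' _ => congrArg _ ?_
  rw [← ps_nat, ps_apply, mon_add]
  refine congrArg _ (funext fun w => (rAp_mulF _ _ _ _).trans ?_)
  rw [map_id, hY.ps, mul_assoc, ← mul_assoc (X 0 ^ _), mul_comm (X 0 ^ _)]
  rfl

omit [Fintype W] in
theorem st_tens (hY : Y.Ok Z' ic o) {y : W → W' → (ℕ →₀ ℕ) → A} {s3 s4 : ℕ} {r : Rw}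
    (h : St y L ix L' ix' s3 s4 r) :
    St (fun (a : W × ι) (b : W' × ι) => mulF ((Z'.cm 3).ps a.2 b.2) (y a.1 b.1)) (tL Y L)
      (tix L ix ic) (tL Y L') (tix L' ix' ic) s3 s4 (tR Y r L L') := by
  refine ⟨tL_ok hY h.ok, tL_ok hY h.ok', fun a b => ?_, fun F a e1 e2 e3 e4 hT => ?_⟩
  · have h1 := homR_mulF ((Z'.cm 3).hps a.2 b.2) (h.hy a.1 b.1)
    rw [tix, tix, tL_dg (h.ok.lt _), tL_dg (h.ok'.lt _)]
    change HomR 3 (_ + (Z'.d _ - Z'.d _)) _ at h1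
    rw [hY.d, hY.d] at h1
    exact (congrArg (HomR 3 · _) (by omega)).mp h1
  rw [tix, tL_dg (h.ok.lt _)] at hT
  rw [ps_tens hY h.ok', tix, tR_f r (h.ok.lt _)]
  refine loop_R _ fun j hj x u hx => ?_
  rw [tr3, force_eq, tr4, pf_eq]
  refine ((P.R.sm _ fun h0 => ?_).shl _).add hx
  obtain ⟨c, rfl⟩ := hY.sur j hj
  have h2 : Y.d (ic c) ≤ Y.d (ic a.2) := not_lt.1 fun h2 => h0 (by
    rw [hY.a, Z'.low _ _ (by rw [hY.d, hY.d]; omega), zero_mul])
  have h3 := h.row (F + Finsupp.single 0 (Y.d (ic a.2) - Y.d (ic c))) a.1 e1 e2 e3 e4 (by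
    rw [wtM_add, show wt 3 0 = 1 from rfl]
    change _ ≤ L'.T at hT
    omega)
  rwa [cd_add, cd_0] at h3

variable {G : ℕ → Type} [∀ q, Fintype (G q)] [Unique (G 0)]

/-- **The data of the complex with cells.** -/
theorem cx_tens {R : Rs 3 K G} {o' : ℤ} {T s3 s4 : ℕ} {D : KD} {ix : ∀ q, G (q + 1) → ℕ}
    (h : Cx R o' T s3 s4 D ix) (hY : Y.Ok Z' ic o) (h0 : R.deg 0 default = 0)
    (h1 : R.th default default = 1) : Cx (R.tens h0 h1 (Z'.cm 3)) (o' + o) T s3 s4 (tK Y D)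
      fun q => tix (D.L q) (ix q) ic :=
  ⟨fun q => st_tens hY (h.st q), fun q a => by
    change R.deg (q + 1) a.1 + Z'.d a.2 = ((tL Y (D.L q)).dg (_ + _) : ℕ) + _
    rw [tL_dg ((h.st q).ok.lt _), h.deg, hY.d]
    omega, h.hT⟩

def cdd (c : Nat) : Nat := c
def cda (c j : Nat) : Nat :=
  Bool.rec (motive := fun _ => Nat) (nat_lit 0)
    (Nat.succ (Nat.div (Nat.sub c j) (nat_lit 2))) (Nat.ble j c)
/-- the cells of `C α` and of `Y` -/
def cdN (m : Nat) : CD := ⟨m, cdd, cda⟩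

theorem cdN_two : (cdN 2).Ok (Ga.two 2) Fin.val 0 :=
  ⟨Fin.val_injective, Fin.is_lt, fun i hi => ⟨⟨i, hi⟩, rfl⟩, fun _ => (add_zero _).symm,
    by decide +revert⟩

theorem cdN_three : (cdN 3).Ok (Ga.three 2 2 2 rfl) Fin.val 0 :=
  ⟨Fin.val_injective, Fin.is_lt, fun i hi => ⟨⟨i, hi⟩, rfl⟩, fun _ => (add_zero _).symm,
    by decide +revert⟩

end Vale.Agent.P236F

end
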